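import Vale.Agent.P272.F.G.Game1

/-! P272 F/G/Game (helper22). Helper names start with `gamec_`.
Copy of `Game.epoch` and `Game.bound` with `Φ σ s = a σ + β (τ - s) (J σ + s / (2 τ))`, horizon `τ` in place of `1 / 4`; in a step from time `s` use `γ = β (τ - s - t^16)`. The number of epochs is bounded in terms of `C₁ H β τ C` only (harmonic series), which gives `Λm`. -/

open Metric Set Filter Topology Complex

noncomputable section

namespace Vale.Agent.P272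

section

variable {St κ : Type} [Fintype κ] {C₁ H β τ Λm : ℝ} {C : ℕ} (G : GameC St κ C₁ H β τ C Λm)

/-- The invariant at the start of an epoch. -/
def gamec_inv (δ Λ t s : ℝ) (σ : St) : Prop :=
  0 ≤ s ∧ s ≤ τ ∧ G.T σ (t ^ 24) ∧ 3 / 4 + 2 / Λ ≤ G.rad σ ∧ G.rad σ ≤ 1 ∧
    (∀ z, ‖z‖ ≤ G.rad σ → G.X σ z ≤ Λ ^ 2 / 4) ∧ s * β / 2 - (δ - 2 / Λ) ≤ gamec_phi G σ s

theorem gamec_ep [Nonempty κ] (hβ : 0 < β) (hτ0 : 0 < τ) (hC : 1 ≤ C)
    {δ Λ t t' p s : ℝ} (hδ : δ ≤ 1) (hδ' : δ ≤ β * τ / 100) (hΛ : 100 ≤ Λ) (hCΛ : 16 * C ≤ Λ)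
    (hΛτ : 100 / τ ≤ Λ) (hΛm : 2 * Λ ≤ Λm)
    (ht : 0 < t) (htΛ : t * (2 * Λ) ^ C = 1) (ht' : t ^ 25 ≤ t' ^ 24) (hp : 1 ≤ p) (hpΛ : p ≤ Λ)
    (hcard : (203 / t ^ 25) ^ 2 * Λ ≤ Real.exp (p / 8))
    (hB : H + β * τ * ((2 * Λ) ^ C + 1) + 2 < Real.exp (p / 8)) {σ₀ : St}
    (h : gamec_inv G δ Λ t s σ₀) : β * τ ≤ 4 * H ∨
      ∃ s' σ, s + 1 / (16 * C * p) ≤ s' ∧ gamec_inv G δ (2 * Λ) t' s' σ := by
  obtain ⟨s0, s1, hT, hr, hr1, hX, hΦ⟩ := h
  have hK : 2 ≤ 2 + 2 * |C₁| := by linarith [abs_nonneg C₁]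
  have hK1 : 4 * C₁ ≤ (2 + 2 * |C₁|) ^ 2 := by nlinarith [abs_nonneg C₁, le_abs_self C₁]
  have hC' : (1 : ℝ) ≤ C := by exact_mod_cast hC
  have hΛ0 : 0 < Λ := by linarith
  obtain ⟨t1, hΛC, t3, -, t5⟩ := game2_t hC hΛ ht htΛ
  have hu : 0 < t ^ 16 := pow_pos ht 16
  have t6 : t ≤ τ / 100 := by
    rw [div_le_iff₀ hτ0] at hΛτ
    nlinarith
  have t7 : t ≤ 1 := by nlinarith
  have t8 : t ^ 16 ≤ τ / 100 := (pow_le_of_le_one ht.le t7 (by norm_num)).trans t6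
  have t4 : t ^ 16 * ((2 * Λ) ^ C + 1) ≤ τ / 50 := by
    have h1 : t ^ 16 * ((2 * Λ) ^ C + 1) = t ^ 15 * (t * (2 * Λ) ^ C) + t ^ 16 := by ring
    have h2 : t ^ 15 ≤ t := pow_le_of_le_one ht.le t7 (by norm_num)
    rw [h1, htΛ]
    linarith
  have hJ : ∀ σ, G.T σ (t ^ 24) → 3 / 4 ≤ G.rad σ → G.rad σ ≤ 1 →
      (∀ z, ‖z‖ ≤ G.rad σ → G.X σ z ≤ (2 * Λ) ^ 2) → G.J σ ≤ (2 * Λ) ^ C :=
    fun σ a1 a2 a3 a4 => (G.step (2 * Λ) t σ (by linarith) hΛm ht htΛ.le a2 a3 a1 a4).1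
  have hCp : 0 < 8 * (C : ℝ) * p := by positivity
  obtain ⟨θ, hθ⟩ : ∃ θ : ℝ, θ = 1 / (8 * C * p) := ⟨_, rfl⟩
  have hθ0 : 0 < θ := by rw [hθ]; positivity
  have hθ1 : 8 * C * p * θ = 1 := by rw [hθ]; field_simp
  have hθ2 : 1 / (16 * C * p) = θ / 2 := by rw [hθ]; field_simp; norm_num
  have hsmall : t ^ 16 ≤ θ / 2 := by
    have h1 : 16 * C * p ≤ Λ * Λ := mul_le_mul hCΛ hpΛ (by linarith) hΛ0.le
    rw [← hθ2, le_div_iff₀ (by positivity), mul_comm]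
    exact (mul_le_mul_of_nonneg_right h1 hu.le).trans t5
  obtain ⟨m, hm⟩ : ∃ m : ℝ, m = min θ (τ - s) := ⟨_, rfl⟩
  have hm0 : 0 ≤ m := by rw [hm]; exact le_min hθ0.le (by linarith)
  have hm1 : m ≤ θ := by rw [hm]; exact min_le_left _ _
  have hm2 : m ≤ τ - s := by rw [hm]; exact min_le_right _ _
  obtain ⟨N, hN1, hN2⟩ := game2_N hm0 hu
  have hN0 : 0 ≤ N * t ^ 16 := by positivity
  have e1 : 2 / Λ = 1 / Λ + 1 / Λ := by ring
  have e2 : 2 / (2 * Λ) = 1 / Λ := by field_simp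
  have e3 : 0 < 1 / Λ := by positivity
  have e4 : (2 * Λ) ^ 2 / 4 = Λ ^ 2 := by ring
  have e5 : Λ ^ 2 ≤ (2 * Λ) ^ 2 := pow_le_pow_left₀ hΛ0.le (by linarith) 2
  have hsβ : 0 ≤ s * β := mul_nonneg s0 hβ.le
  obtain ⟨σ, a1, a2, a3, a4, a5, a6⟩ := gamec_epoch G hβ hτ0 hC hK hK1 (Λ := Λ) (t := t) (p := p)
    (s := s) (N := N) (by linarith) ht t1 hp s0 (by linarith)
    ((mul_le_mul_of_nonneg_left (hN1.trans hm1) hCp.le).trans hθ1.le) hcard
    (B := (2 * Λ) ^ C) (by positivity) hB hJ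
    (fun σ b1 b2 b3 b4 γ g0 g1 => by
      obtain ⟨σ', r, c1, c2, c3, c4, c6⟩ :=
        (G.step Λ t σ (by linarith) (by linarith) ht hΛC b1 b2 b3 b4).2 γ g0 g1
      refine ⟨σ', r, c1, c2, c3, c4, fun z d1 d2 => c6 p z hp hpΛ d1 ?_⟩
      rwa [show 2 + 2 * |C₁| + 2 = 4 + 2 * |C₁| by ring] at d2)
    hT (by linarith) hr1 hX (by linarith)
  have hNpos : θ ≤ m → 0 < N := by
    intro hmτ
    refine Nat.pos_of_ne_zero fun h0 => ?_
    rw [h0] at hN2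
    simp only [Nat.cast_zero, zero_mul, zero_add] at hN2
    linarith
  generalize (N : ℝ) * t ^ 16 = w at *
  have c7 : (s + w) * β = s * β + w * β := by ring
  rcases le_total θ (τ - s) with hfull | hlast
  · right
    have hmτ : m = θ := by rw [hm]; exact min_eq_left hfull
    refine ⟨s + w, σ, by linarith, by linarith, by linarith,
      G.mono σ _ _ ht' (a2 (hNpos hmτ.ge)), by linarith, a4, fun z hz => ?_, ?_⟩
    · rw [e4]
      exact a5 z hz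
    · refine le_trans ?_ a6
      linarith
  · left
    have hms : m = τ - s := by rw [hm]; exact min_eq_right hlast
    have hrad : 3 / 4 ≤ G.rad σ := by linarith
    have f1 := gamec_phi_le G hβ hτ0 a1 (s := s + w) (w := t ^ 16) (by linarith) (by linarith)
      (by linarith) (by positivity) (hJ σ a1 hrad a4 fun z hz => (a5 z hz).trans e5)
    have f2 := mul_le_mul_of_nonneg_left t4 hβ.le
    have f3 : (τ - τ / 100) * β ≤ (s + w) * β := mul_le_mul_of_nonneg_right (by linarith) hβ.le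
    have f4 : 0 < β * τ := by positivity
    linear_combination 4 * f1 + 4 * f2 + 2 * f3 + 4 * a6 + 4 * hΦ + 4 * hδ' + 4 * e3.le +
      43 / 50 * f4.le

end

theorem gameC_bound (κ : Type) [Fintype κ] [Nonempty κ] (C₁ H : ℝ) {β τ : ℝ} (hβ : 0 < β)
    (hτ : 0 < τ) {C : ℕ} (hC : 1 ≤ C) : ∃ Λm : ℝ, 1 ≤ Λm ∧
      ∀ St : Type, GameC St κ C₁ H β τ C Λm → β * τ ≤ 4 * H := by
  have hβτ : 0 < β * τ := by positivity
  have hC' : (1 : ℝ) ≤ C := by exact_mod_cast hC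
  obtain ⟨Q, hQ⟩ : ∃ Q : ℕ, Q = 17 + 100 * C := ⟨_, rfl⟩
  have hQ0 : (1 : ℝ) ≤ Q := by exact_mod_cast (by omega : 1 ≤ Q)
  obtain ⟨k, hk, hl⟩ := game2_large (8 * Q)
    (100 + 16 * C + (|H| + 2 * (β * τ) + 2) + 200 / (β * τ) + 100 / τ) (by positivity)
  have hk0 : (1 : ℝ) ≤ k := by exact_mod_cast (by omega : 1 ≤ k)
  have p1 : 0 ≤ |H| + 2 * (β * τ) + 2 := by positivity
  have p2 : 0 < 200 / (β * τ) := by positivity
  have p3 : 0 < 100 / τ := by positivity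
  have hδ : 2 / (2 : ℝ) ^ k ≤ 1 := by
    rw [div_le_one (by positivity)]
    linarith [(hl k le_rfl).2]
  have hδ' : 2 / (2 : ℝ) ^ k ≤ β * τ / 100 := by
    have h1 : 200 / (β * τ) ≤ 2 ^ k := by linarith [(hl k le_rfl).2]
    rw [div_le_iff₀ hβτ] at h1
    rw [div_le_div_iff₀ (by positivity) (by norm_num)]
    linarith
  have hdiv := (Real.tendsto_sum_range_one_div_nat_succ_atTop.const_mul_atTop
    (show (0 : ℝ) < 1 / (128 * C * Q * k) by positivity)).eventually_gt_atTop τ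
  obtain ⟨M, hM⟩ := hdiv.exists
  refine ⟨2 ^ (k + M), one_le_pow₀ one_le_two, fun St G => ?_⟩
  by_contra hcon
  have main : ∀ m : ℕ, m ≤ M →
      ∃ s σ, 1 / (128 * C * Q * k) * ∑ i ∈ Finset.range m, (1 / (i + 1) : ℝ) ≤ s ∧
      gamec_inv G (2 / 2 ^ k) (2 ^ (k + m)) (((2 * 2 ^ (k + m)) ^ C)⁻¹) s σ := by
    intro m
    induction m with
    | zero =>
      intro _
      obtain ⟨σ, a1, a2, a3, a4⟩ := G.init
      refine ⟨0, σ, by simp, le_rfl, hτ.le, G.mono σ _ _ (by positivity) a1, ?_, a2.le,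
        fun z _ => ?_, ?_⟩
      · have h1 : 2 / (2 : ℝ) ^ k ≤ 1 / 4 := by
          rw [div_le_div_iff₀ (by positivity) (by norm_num)]
          linarith [(hl k le_rfl).2]
        rw [a2, add_zero]
        linarith
      · rw [a4]
        positivity
      · have h1 := (G.ha σ 0 a1 (by rw [a2]; norm_num)).1
        rw [gamec_phi, a3, add_zero]
        simpa using h1
    | succ m ih =>
      intro hm
      obtain ⟨s, σ, hs, hinv⟩ := ih (by omega)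
      obtain ⟨j, hj⟩ : ∃ j : ℕ, j = k + m := ⟨_, rfl⟩
      rw [← hj] at hinv
      obtain ⟨l1, l2⟩ := hl j (by omega)
      have hj1 : (1 : ℝ) ≤ j := by exact_mod_cast (by omega : 1 ≤ j)
      obtain ⟨n1, n2, n3⟩ := game2_num (H := H) hQ (j := j) (by omega) hβτ (by linarith)
      have n4 : (1 : ℝ) ≤ 8 * Q * j := one_le_mul_of_one_le_of_one_le (by linarith) hj1
      have n5 : (2 : ℝ) * 2 ^ j ≤ 2 ^ (k + M) := by
        rw [← pow_succ']
        exact pow_le_pow_right₀ one_le_two (by omega)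
      rcases gamec_ep G hβ hτ hC (Λ := 2 ^ j) (t := ((2 * 2 ^ j) ^ C)⁻¹)
        (t' := ((2 * 2 ^ (j + 1)) ^ C)⁻¹) (p := 8 * Q * j) hδ hδ' (by linarith) (by linarith)
        (by linarith) n5 (by positivity) (inv_mul_cancel₀ (by positivity)) n1 n4 l1 n2 n3 hinv with
        h | ⟨s', σ', h1, h2⟩
      · exact absurd h hcon
      · refine ⟨s', σ', ?_, ?_⟩
        · rw [Finset.sum_range_succ, mul_add]
          refine le_trans (add_le_add hs ?_) h1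
          rw [div_mul_div_comm, one_mul]
          refine one_div_le_one_div_of_le (by positivity) ?_
          have h3 : (j : ℝ) ≤ k * (m + 1) := by
            have h5 := mul_le_mul_of_nonneg_right hk0 (Nat.cast_nonneg m : (0 : ℝ) ≤ m)
            rw [hj]
            push_cast
            linarith
          have h4 := mul_le_mul_of_nonneg_left h3 (show (0 : ℝ) ≤ 128 * C * Q by positivity)
          linarith
        · rw [← add_assoc, ← hj, pow_succ' 2 j]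
          rwa [pow_succ' 2 j] at h2
  obtain ⟨s, σ, hs, hinv⟩ := main M le_rfl
  linarith [hinv.2.1]

end Vale.Agent.P272
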