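import Vale.Agent.P272.Defs2
import Vale.Agent.P272.F.Defs

/-! P272 F/G (owner helper34, frozen): definitions for the twisted game. -/

open Metric Set Filter Topology Complex MeasureTheory
open scoped ContDiff

noncomputable section

namespace Vale.Agent.P272

variable {n : ℕ} {X : Type} [TopologicalSpace X] {A : Atl n X}

/-- The Laplacian in the plane. -/
def lap (u : ℂ → ℝ) (z : ℂ) : ℝ :=
  fderiv ℝ (fderiv ℝ u) z 1 1 + fderiv ℝ (fderiv ℝ u) z I I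

/-- The Green integral, averaged over the circle of radius `r₀`. -/
def grn (u : ℂ → ℝ) (r₀ r : ℝ) : ℝ :=
  (2 * Real.pi)⁻¹ * ∫ z in ball (0 : ℂ) r, Real.log (r / max ‖z‖ r₀) * u z

/-- Unitary operators. -/
def Uni (U : L n) : Prop := star U * U = 1 ∧ U * star U = 1

/-- The tube with rotated frame. -/
def rot (F : ℂ × E n → X) (U : L n) (p : ℂ × E n) : X := F (p.1, U p.2)

/-- The tube recentred at `z w`. -/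
def sh (W : ℂ × E n → X) (w : E n) (p : ℂ × E n) : X := W (p.1, p.1 • w + p.2)

/-- The form `ρ` along a disc. -/
def Atl.Pot.sp (ρ : A.Pot) (f : ℂ → X) (z : ℂ) : ℝ :=
  levi (ρ.u (A.ch (f z))) (A.e (A.ch (f z)) (f z)) (A.dv (A.ch (f z)) f z)

/-- The characteristic function. -/
def Atl.Pot.T (ρ : A.Pot) (f : ℂ → X) (r : ℝ) : ℝ := grn (fun z => 4 * ρ.sp f z) 0 r

/-- The bounded gain functional. -/
def aF (ρ : A.Pot) (b : X → ℝ) (j : Fin A.N) (r₀ : ℝ) (f : ℂ → X) : ℝ :=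
  Real.circleAverage (fun z => 2 * ρ.u j (A.e j (f z)) + b (f z)) 0 r₀

/-- Discs stay in the chart near their centre. -/
def Atl.Near (A : Atl n X) (r₀ : ℝ) : Prop :=
  0 < r₀ ∧ r₀ ≤ 1 / 8 ∧ ∀ j (f : ℂ → X), (∀ z ∈ ball (0 : ℂ) (1 / 2), A.HolAt f z) →
    A.In j 1 (f 0) → ∀ z, ‖z‖ ≤ 2 * r₀ → A.In j 2 (f z)

/-- The metric and the volume form attached to a supersolution. -/
structure MV (ρ : A.Pot) (v : A.LV) (ε : ℝ) (φ : X → ℝ) (K C : ℝ) (g : Met A) (w : Vol g) :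
    Prop where
  K1 : 1 ≤ K
  C1 : 1 ≤ C
  sm : A.Sm φ
  eq : ∀ j y, w.ℓ j y = v.l j y + A.loc φ j y + n * Real.log K
  tr : ∀ j y (V : L n), ‖y‖ ≤ 4 → ‖star V * g.Γ j y * V - 1‖ ≤ 1 / 2 →
    trL (w.ℓ j) y V - ε * trL (ρ.u j) y V ≤ n / K + C * ‖star V * g.Γ j y * V - 1‖

/-- A state together with a tube, for all rotations of the frame. -/
structure Met.SU (g : Met A) (F W : ℂ × E n → X) (r Λ t M ε B K D P : ℝ) : Prop where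
  sw : ∀ U : L n, Uni U → g.SW (rot F U) (rot W U) r Λ t M ε B K D P
  hol : ∀ z u, ‖z‖ < r - 2 * t ^ 24 → ‖u‖ < 2 * ε → A.HolAt W (z, u)
  ctr : ∀ z, ‖z‖ < r - 2 * t ^ 24 → W (z, 0) = F (z, 0)
  near : ∀ k z u, ‖z‖ < r - 2 * t ^ 24 → ‖u‖ < 2 * ε → A.In k 2 (F (z, 0)) →
    W (z, u) ∈ (A.e k).source ∧ ‖A.e k (W (z, u)) - A.e k (F (z, 0))‖ ≤ 4 * M * ‖u‖

/-- The capped game with horizon `τ`. -/
structure GameC (St κ : Type) [Fintype κ] (C₁ H β τ : ℝ) (C : ℕ) (Λm : ℝ) where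
  rad : St → ℝ
  a : St → ℝ
  J : St → ℝ
  X : St → ℂ → ℝ
  T : St → ℝ → Prop
  mono : ∀ σ η η', η ≤ η' → T σ η → T σ η'
  ha : ∀ σ η, T σ η → 1 / 2 ≤ rad σ → 0 ≤ a σ ∧ a σ ≤ H
  hX : ∀ σ η z, T σ η → ‖z‖ < rad σ → X σ z ≤ C₁ / (rad σ - ‖z‖) ^ 2
  init : ∃ σ, T σ 0 ∧ rad σ = 1 ∧ J σ = 0 ∧ ∀ z, X σ z = 0
  step : ∀ (Λ t : ℝ) (σ : St), (C : ℝ) ≤ Λ → Λ ≤ Λm → 0 < t →
    t * Λ ^ C ≤ 1 → 3 / 4 ≤ rad σ → rad σ ≤ 1 → T σ (t ^ 24) →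
    (∀ z, ‖z‖ ≤ rad σ → X σ z ≤ Λ ^ 2) → J σ ≤ Λ ^ C ∧ ∀ γ : ℝ, 0 ≤ γ → γ ≤ β * τ →
    ∃ (σ' : κ → St) (r : ℝ), rad σ - 4 * t ^ 24 ≤ r ∧ r ≤ rad σ ∧
      (∀ k, rad (σ' k) = r ∧ T (σ' k) (t ^ 25) ∧ (∀ z, ‖z‖ ≤ r → X (σ' k) z ≤ (2 * Λ) ^ 2) ∧
        ∀ z w, ‖z‖ ≤ r → ‖w‖ ≤ r → X (σ' k) w ≤ X (σ' k) z + ‖z - w‖ / t ^ 25) ∧
      Fintype.card κ * (a σ + γ * J σ + t ^ 16 * (β * (1 + J σ) - γ / (2 * τ))) ≤
        ∑ k, (a (σ' k) + γ * J (σ' k)) ∧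
      ∀ (p : ℝ) (z : ℂ), 1 ≤ p → p ≤ Λ → ‖z‖ ≤ r → rad σ - (4 + 2 * |C₁|) / Λ ≤ ‖z‖ →
        ∑ k, Real.exp (p * X (σ' k) z / Λ ^ 2) ≤
          Fintype.card κ * (Real.exp (p * X σ z / Λ ^ 2) * (1 + C * p ^ 2 * t ^ 16))

end Vale.Agent.P272
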