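import Vale.Agent.P272.F.G.Defs
import Vale.Agent.P272.Game2

/-! P272 F/G/Game1 (helper22): one epoch of the capped game. -/

open Metric Set Filter Topology Complex

noncomputable section

namespace Vale.Agent.P272

section

variable {St κ : Type} [Fintype κ] {C₁ H β τ Λm : ℝ} {C : ℕ} (G : GameC St κ C₁ H β τ C Λm)

/-- The penalty. -/
def gamec_pen (S : Finset ℂ) (ρ p Λ : ℝ) (σ : St) : ℝ :=
  ∑ z ∈ S.filter fun z => ρ ≤ ‖z‖ ∧ ‖z‖ ≤ G.rad σ, Real.exp (p * G.X σ z / Λ ^ 2)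

/-- The potential. -/
def gamec_phi (σ : St) (s : ℝ) : ℝ := G.a σ + β * (τ - s) * (G.J σ + s / (2 * τ))

theorem gamec_pen_nn (S : Finset ℂ) (ρ p Λ : ℝ) (σ : St) : 0 ≤ gamec_pen G S ρ p Λ σ :=
  Finset.sum_nonneg fun _ _ => (Real.exp_pos _).le

theorem gamec_pen_sum (S : Finset ℂ) {ρ p Λ r D : ℝ} {σ : St} {σ' : κ → St}
    (h1 : ∀ k, G.rad (σ' k) = r) (h2 : r ≤ G.rad σ) (hD : 0 ≤ D)
    (h3 : ∀ z : ℂ, ‖z‖ ≤ r → ρ ≤ ‖z‖ → ∑ k, Real.exp (p * G.X (σ' k) z / Λ ^ 2) ≤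
      Fintype.card κ * (Real.exp (p * G.X σ z / Λ ^ 2) * D)) :
    ∑ k, gamec_pen G S ρ p Λ (σ' k) ≤ Fintype.card κ * (gamec_pen G S ρ p Λ σ * D) := by
  simp only [gamec_pen, h1]
  rw [Finset.sum_comm, Finset.sum_mul, Finset.mul_sum]
  refine (Finset.sum_le_sum fun z hz => h3 z (Finset.mem_filter.1 hz).2.2
    (Finset.mem_filter.1 hz).2.1).trans (Finset.sum_le_sum_of_subset_of_nonneg (fun z hz => ?_)
      fun z _ _ => by positivity)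
  rw [Finset.mem_filter] at hz ⊢
  exact ⟨hz.1, hz.2.1, hz.2.2.trans h2⟩

theorem gamec_avg (hβ : 0 < β) (hτ : 0 < τ) {σ : St} {σ' : κ → St} {s u : ℝ} (hu : 0 ≤ u)
    (h1 : s ≤ τ) (h2 : Fintype.card κ * (G.a σ + β * (τ - s - u) * G.J σ +
      u * (β * (1 + G.J σ) - β * (τ - s - u) / (2 * τ))) ≤
        ∑ k, (G.a (σ' k) + β * (τ - s - u) * G.J (σ' k))) :
    Fintype.card κ * (gamec_phi G σ s + u * β / 2) ≤ ∑ k, gamec_phi G (σ' k) (s + u) := by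
  have h6 : s / (2 * τ) ≤ 1 / 2 := by
    rw [div_le_div_iff₀ (by positivity) two_pos]
    linarith
  have h7 : (0 : ℝ) ≤ Fintype.card κ * (u * β) := by positivity
  have h8 := mul_le_mul_of_nonneg_left h6 h7
  have e : ∑ k, gamec_phi G (σ' k) (s + u) = ∑ k, (G.a (σ' k) + β * (τ - s - u) * G.J (σ' k)) +
      Fintype.card κ * (β * (τ - s - u) * ((s + u) / (2 * τ))) := by
    rw [← nsmul_eq_mul, ← Finset.card_univ, ← Finset.sum_const, ← Finset.sum_add_distrib]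
    exact Finset.sum_congr rfl fun k _ => by unfold gamec_phi; ring
  rw [e, gamec_phi]
  linear_combination h2 + h8

theorem gamec_phi_le (hβ : 0 < β) (hτ : 0 < τ) {σ : St} {η s B w : ℝ} (hT : G.T σ η)
    (hr : 1 / 2 ≤ G.rad σ) (h1 : s ≤ τ) (hw : τ - s ≤ w) (hB : 0 ≤ B) (hJ : G.J σ ≤ B) :
    gamec_phi G σ s ≤ H + β * w * (B + 1) := by
  have h2 : 0 ≤ β * (τ - s) := mul_nonneg hβ.le (sub_nonneg.2 h1)
  have h3 : β * (τ - s) ≤ β * w := mul_le_mul_of_nonneg_left hw hβ.le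
  have h7 : s / (2 * τ) ≤ 1 := by
    rw [div_le_one (by positivity)]
    linarith
  have h4 : β * (τ - s) * (G.J σ + s / (2 * τ)) ≤ β * (τ - s) * (B + 1) :=
    mul_le_mul_of_nonneg_left (by linarith) h2
  have h5 := mul_le_mul_of_nonneg_right h3 (by linarith : 0 ≤ B + 1)
  have h6 := (G.ha σ η hT hr).2
  unfold gamec_phi
  linarith

theorem gamec_X {S : Finset ℂ} {ε K Λ p r₀ η : ℝ} {σ : St} (hε : 0 < ε) (hε1 : ε ≤ 1 / Λ)
    (hS : ∀ w : ℂ, ‖w‖ ≤ 1 → ∃ z ∈ S, ‖z‖ ≤ ‖w‖ ∧ ‖z - w‖ ≤ ε / 4) (hK : 2 ≤ K)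
    (hK1 : 4 * C₁ ≤ K ^ 2) (hΛ : 1 ≤ Λ) (hp : 1 ≤ p) (hT : G.T σ η)
    (hr : r₀ - 1 / Λ ≤ G.rad σ) (hr1 : G.rad σ ≤ 1)
    (hL : ∀ z w, ‖z‖ ≤ G.rad σ → ‖w‖ ≤ G.rad σ → G.X σ w ≤ G.X σ z + ‖z - w‖ / ε)
    (hP : gamec_pen G S (r₀ - (K + 1) / Λ) p Λ σ < Real.exp (5 / 8 * p)) (w : ℂ)
    (hw : ‖w‖ ≤ G.rad σ) : G.X σ w ≤ Λ ^ 2 := by
  have hΛ0 : 0 < Λ := lt_of_lt_of_le one_pos hΛ
  have hu : 0 < 1 / Λ := by positivity
  rcases lt_or_ge ‖w‖ (r₀ - K / Λ) with h | h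
  · have h1 : K / 2 * (1 / Λ) ≤ (K - 1) * (1 / Λ) :=
      mul_le_mul_of_nonneg_right (by linarith) hu.le
    have h2 : K / 2 * (1 / Λ) ≤ G.rad σ - ‖w‖ := by linear_combination h1 + hr + h.le
    have h3 : 0 < K / 2 * (1 / Λ) := by positivity
    have h4 : 0 < G.rad σ - ‖w‖ := h3.trans_le h2
    refine (G.hX σ η w hT (sub_pos.1 h4)).trans ?_
    rw [div_le_iff₀ (by positivity)]
    have h5 := mul_le_mul_of_nonneg_left (pow_le_pow_left₀ h3.le h2 2) (sq_nonneg Λ)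
    have e : Λ ^ 2 * (K / 2 * (1 / Λ)) ^ 2 = K ^ 2 / 4 := by
      field_simp
      norm_num
    linarith
  · obtain ⟨z, hz, h1, h2⟩ := hS w (hw.trans hr1)
    have h3 : ‖w‖ - ‖z‖ ≤ ‖z - w‖ := by
      rw [norm_sub_rev]
      exact norm_sub_norm_le w z
    have h4 : r₀ - (K + 1) / Λ ≤ ‖z‖ := by
      linear_combination h + h3 + h2 + hε1 + 3 / 4 * hε.le
    have h5 : Real.exp (p * G.X σ z / Λ ^ 2) ≤ gamec_pen G S (r₀ - (K + 1) / Λ) p Λ σ :=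
      Finset.single_le_sum (f := fun z => Real.exp (p * G.X σ z / Λ ^ 2))
        (fun _ _ => (Real.exp_pos _).le) (Finset.mem_filter.2 ⟨hz, h4, h1.trans hw⟩)
    have h6 := Real.exp_lt_exp.1 (h5.trans_lt hP)
    rw [div_lt_iff₀ (by positivity)] at h6
    have h7 : G.X σ z < 5 / 8 * Λ ^ 2 :=
      lt_of_mul_lt_mul_left (a := p) (by linear_combination h6) (by linarith)
    have h8 : ‖z - w‖ / ε ≤ 1 / 4 := by
      rw [div_le_iff₀ hε]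
      linarith
    have h9 := hL z w (h1.trans hw) hw
    have h10 : 1 ≤ Λ ^ 2 := one_le_pow₀ hΛ
    linarith

theorem gamec_base {S : Finset ℂ} {c ρ Λ p x : ℝ} {N : ℕ} {σ : St} (hS : (S.card : ℝ) ≤ c)
    (hΛ : 1 ≤ Λ) (hp : 1 ≤ p) (hc : c * Λ ≤ Real.exp (p / 8)) (hx : 0 ≤ x) (hN : N * x ≤ p / 8)
    (hX : ∀ z, ‖z‖ ≤ G.rad σ → G.X σ z ≤ Λ ^ 2 / 4) :
    Real.exp (-(p / 2)) * gamec_pen G S ρ p Λ σ * (1 + x) ^ N ≤ 1 / Λ := by
  have hΛ0 : 0 < Λ := lt_of_lt_of_le one_pos hΛ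
  have h1 : gamec_pen G S ρ p Λ σ ≤ c * Real.exp (p / 4) := by
    refine (Finset.sum_le_card_nsmul _ _ (Real.exp (p / 4)) fun z hz => ?_).trans ?_
    · refine Real.exp_le_exp.2 ?_
      rw [div_le_iff₀ (by positivity)]
      have h2 := mul_le_mul_of_nonneg_left (hX z (Finset.mem_filter.1 hz).2.2)
        (by linarith : 0 ≤ p)
      linear_combination h2
    · rw [nsmul_eq_mul]
      refine mul_le_mul_of_nonneg_right (le_trans ?_ hS) (Real.exp_pos _).le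
      exact_mod_cast Finset.card_filter_le _ _
  have h2 : (1 + x) ^ N ≤ Real.exp (p / 8) := by
    have h3 : 1 + x ≤ Real.exp x := by linarith [Real.add_one_le_exp x]
    refine (pow_le_pow_left₀ (by linarith) h3 N).trans ?_
    rw [← Real.exp_nat_mul]
    exact Real.exp_le_exp.2 hN
  have h3 : 0 ≤ c := (Nat.cast_nonneg _).trans hS
  have h4 : Real.exp (-(p / 2)) * Real.exp (p / 4) * Real.exp (p / 8) * Real.exp (p / 8) = 1 := by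
    rw [← Real.exp_add, ← Real.exp_add, ← Real.exp_add, ← Real.exp_zero]
    exact congrArg Real.exp (by ring)
  have h5 : Real.exp (-(p / 2)) * gamec_pen G S ρ p Λ σ * (1 + x) ^ N ≤
      Real.exp (-(p / 2)) * (c * Real.exp (p / 4)) * Real.exp (p / 8) :=
    mul_le_mul (mul_le_mul_of_nonneg_left h1 (Real.exp_pos _).le) h2 (by positivity)
      (by positivity)
  refine h5.trans ?_
  rw [le_div_iff₀ hΛ0]
  have h6 := mul_le_mul_of_nonneg_left hc (by positivity :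
    0 ≤ Real.exp (-(p / 2)) * Real.exp (p / 4) * Real.exp (p / 8))
  linear_combination h6 + h4

theorem gamec_epoch [Nonempty κ] (hβ : 0 < β) (hτ0 : 0 < τ) (hC : 1 ≤ C) {K : ℝ} (hK : 2 ≤ K)
    (hK1 : 4 * C₁ ≤ K ^ 2) {Λ t p s : ℝ} {N : ℕ} (hΛ : 1 ≤ Λ) (ht : 0 < t)
    (ht1 : t * Λ ≤ 1) (hp : 1 ≤ p) (hs : 0 ≤ s) (hN : s + N * t ^ 16 ≤ τ)
    (hτ : 8 * C * p * (N * t ^ 16) ≤ 1) (hcard : (203 / t ^ 25) ^ 2 * Λ ≤ Real.exp (p / 8))
    {B : ℝ} (hB0 : 0 ≤ B) (hB : H + β * τ * (B + 1) + 2 < Real.exp (p / 8))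
    (hJ : ∀ σ, G.T σ (t ^ 24) → 3 / 4 ≤ G.rad σ → G.rad σ ≤ 1 →
      (∀ z, ‖z‖ ≤ G.rad σ → G.X σ z ≤ (2 * Λ) ^ 2) → G.J σ ≤ B)
    (step : ∀ σ, 3 / 4 ≤ G.rad σ → G.rad σ ≤ 1 → G.T σ (t ^ 24) →
      (∀ z, ‖z‖ ≤ G.rad σ → G.X σ z ≤ Λ ^ 2) → ∀ γ : ℝ, 0 ≤ γ → γ ≤ β * τ →
      ∃ (σ' : κ → St) (r : ℝ), G.rad σ - 4 * t ^ 24 ≤ r ∧ r ≤ G.rad σ ∧
        (∀ k, G.rad (σ' k) = r ∧ G.T (σ' k) (t ^ 25) ∧
          (∀ z, ‖z‖ ≤ r → G.X (σ' k) z ≤ (2 * Λ) ^ 2) ∧ ∀ z w, ‖z‖ ≤ r → ‖w‖ ≤ r →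
          G.X (σ' k) w ≤ G.X (σ' k) z + ‖z - w‖ / t ^ 25) ∧
        Fintype.card κ * (G.a σ + γ * G.J σ + t ^ 16 * (β * (1 + G.J σ) - γ / (2 * τ))) ≤
          ∑ k, (G.a (σ' k) + γ * G.J (σ' k)) ∧
        ∀ z : ℂ, ‖z‖ ≤ r → G.rad σ - (K + 2) / Λ ≤ ‖z‖ →
          ∑ k, Real.exp (p * G.X (σ' k) z / Λ ^ 2) ≤
            Fintype.card κ * (Real.exp (p * G.X σ z / Λ ^ 2) * (1 + C * p ^ 2 * t ^ 16)))
    {σ₀ : St} (h0 : G.T σ₀ (t ^ 24)) (hr : 3 / 4 + 1 / Λ ≤ G.rad σ₀) (hr1 : G.rad σ₀ ≤ 1)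
    (hX : ∀ z, ‖z‖ ≤ G.rad σ₀ → G.X σ₀ z ≤ Λ ^ 2 / 4) (hΦ : -1 ≤ gamec_phi G σ₀ s) :
    ∃ σ, G.T σ (t ^ 24) ∧ (0 < N → G.T σ (t ^ 25)) ∧ G.rad σ₀ - 1 / Λ ≤ G.rad σ ∧
      G.rad σ ≤ 1 ∧ (∀ z, ‖z‖ ≤ G.rad σ → G.X σ z ≤ Λ ^ 2) ∧
      gamec_phi G σ₀ s + N * t ^ 16 * β / 2 - 1 / Λ ≤ gamec_phi G σ (s + N * t ^ 16) := by
  have hΛ0 : 0 < Λ := lt_of_lt_of_le one_pos hΛ
  have ht2 : t ≤ 1 / Λ := (le_div_iff₀ hΛ0).2 ht1
  have hu : 1 / Λ ≤ 1 := (div_le_one hΛ0).2 hΛ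
  have ht3 : t ≤ 1 := ht2.trans hu
  have hε : t ^ 25 ≤ t ^ 24 := pow_le_pow_of_le_one ht.le ht3 (by norm_num)
  have hε1 : t ^ 25 ≤ 1 / Λ := (pow_le_of_le_one ht.le ht3 (by norm_num)).trans ht2
  have hq : 4 * (N * t ^ 24) ≤ 1 / Λ := by
    have h1 : t ^ 8 ≤ 1 / Λ := (pow_le_of_le_one ht.le ht3 (by norm_num)).trans ht2
    have h2 : 4 * (N * t ^ 16) ≤ 1 := by
      have h4 : (1 : ℝ) ≤ C * p := one_le_mul_of_one_le_of_one_le (by exact_mod_cast hC) hp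
      have h5 := mul_le_mul_of_nonneg_right h4 (by positivity : (0 : ℝ) ≤ N * t ^ 16)
      have h6 : (0 : ℝ) ≤ N * t ^ 16 := by positivity
      linarith
    have h3 := mul_le_mul_of_nonneg_right h2 (pow_pos ht 8).le
    linear_combination h1 + h3
  obtain ⟨S, hS1, hS2⟩ := game1_net (pow_pos ht 25) (hε1.trans hu)
  have hx : (0 : ℝ) ≤ C * p ^ 2 * t ^ 16 := by positivity
  have hb := gamec_base G (ρ := G.rad σ₀ - (K + 1) / Λ) (N := N) hS1 hΛ hp hcard hx (by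
    have h1 := mul_le_mul_of_nonneg_left hτ (by linarith : 0 ≤ p / 8)
    linear_combination h1) hX
  have key : ∀ i : ℕ, i ≤ N → ∃ σ, G.T σ (t ^ 24) ∧ (0 < i → G.T σ (t ^ 25)) ∧
      G.rad σ₀ - 4 * (i * t ^ 24) ≤ G.rad σ ∧ G.rad σ ≤ G.rad σ₀ ∧
      (∀ z, ‖z‖ ≤ G.rad σ → G.X σ z ≤ Λ ^ 2) ∧
      gamec_phi G σ₀ s + i * t ^ 16 * β / 2 - 1 / Λ ≤ gamec_phi G σ (s + i * t ^ 16) -
        Real.exp (-(p / 2)) * gamec_pen G S (G.rad σ₀ - (K + 1) / Λ) p Λ σ *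
          (1 + C * p ^ 2 * t ^ 16) ^ (N - i) := by
    intro i
    induction i with
    | zero =>
      refine fun _ => ⟨σ₀, h0, fun h => absurd h (lt_irrefl 0), by simp, le_rfl, fun z hz => ?_, ?_⟩
      · linarith [hX z hz, sq_nonneg Λ]
      · simp only [Nat.cast_zero, zero_mul, add_zero, Nat.sub_zero, zero_div]
        linarith
    | succ i ih =>
      intro hi
      obtain ⟨σ, a1, -, a3, a4, a5, a6⟩ := ih (Nat.le_of_succ_le hi)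
      have hi1 : ((i + 1 : ℕ) : ℝ) ≤ N := by exact_mod_cast hi
      have hi2 : ((i + 1 : ℕ) : ℝ) = i + 1 := Nat.cast_succ i
      have hi3 : (0 : ℝ) ≤ i := Nat.cast_nonneg i
      have b1 := mul_le_mul_of_nonneg_right hi1 (pow_pos ht 24).le
      have b2 := mul_le_mul_of_nonneg_right hi1 (pow_pos ht 16).le
      have b3 := pow_pos ht 24
      have b4 := pow_pos ht 16
      have b5 : 0 ≤ i * t ^ 16 := mul_nonneg hi3 b4.le
      rw [hi2, add_mul, one_mul] at b1 b2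
      obtain ⟨σ', r, c1, c2, c3, c4, c6⟩ := step σ (by linarith) (a4.trans hr1) a1 a5
        (β * (τ - (s + i * t ^ 16) - t ^ 16)) (mul_nonneg hβ.le (by linarith))
        (mul_le_mul_of_nonneg_left (by linarith) hβ.le)
      have d1 := gamec_avg G hβ hτ0 (s := s + i * t ^ 16) b4.le (by linarith) c4
      have d2 := gamec_pen_sum G S (ρ := G.rad σ₀ - (K + 1) / Λ) (fun k => (c3 k).1) c2
        (by linarith : 0 ≤ 1 + C * p ^ 2 * t ^ 16) fun z hz hz' => c6 z hz (by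
          have h1 : 0 < 1 / Λ := by positivity
          linear_combination hz' + a4 + h1.le)
      have d3 : 0 ≤ Real.exp (-(p / 2)) * (1 + C * p ^ 2 * t ^ 16) ^ (N - (i + 1)) := by positivity
      have d4 := mul_le_mul_of_nonneg_left d2 d3
      have d5 : N - i = N - (i + 1) + 1 := by omega
      rw [d5, pow_succ (1 + C * p ^ 2 * t ^ 16)] at a6
      have d6 := mul_le_mul_of_nonneg_left a6 (Nat.cast_nonneg (Fintype.card κ) : (0 : ℝ) ≤ _)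
      obtain ⟨k, -, hk⟩ := Finset.exists_le_of_sum_le (s := (Finset.univ : Finset κ))
        Finset.univ_nonempty
        (f := fun _ => gamec_phi G σ₀ s + (i + 1) * t ^ 16 * β / 2 - 1 / Λ)
        (g := fun k => gamec_phi G (σ' k) (s + i * t ^ 16 + t ^ 16) -
          Real.exp (-(p / 2)) * (1 + C * p ^ 2 * t ^ 16) ^ (N - (i + 1)) *
            gamec_pen G S (G.rad σ₀ - (K + 1) / Λ) p Λ (σ' k)) (by
          rw [Finset.sum_const, Finset.card_univ, nsmul_eq_mul, Finset.sum_sub_distrib,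
            ← Finset.mul_sum]
          linear_combination d1 + d4 + d6)
      obtain ⟨e1, e2, e3, e4⟩ := c3 k
      subst e1
      have e5 := G.mono _ _ _ hε e2
      have e6 : G.rad σ₀ - 1 / Λ ≤ G.rad (σ' k) := by linarith
      have e7 : G.rad (σ' k) ≤ 1 := (c2.trans a4).trans hr1
      have e8 := gamec_phi_le G hβ hτ0 e5 (s := s + i * t ^ 16 + t ^ 16) (w := τ) (by linarith)
        (by linarith) (by linarith) hB0 (hJ _ e5 (by linarith) e7 e3)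
      have e9 : gamec_pen G S (G.rad σ₀ - (K + 1) / Λ) p Λ (σ' k) < Real.exp (5 / 8 * p) := by
        have f1 : 1 ≤ (1 + C * p ^ 2 * t ^ 16) ^ (N - (i + 1)) := one_le_pow₀ (by linarith)
        have f2 := mul_le_mul_of_nonneg_left f1 (mul_nonneg (Real.exp_pos (-(p / 2))).le
          (gamec_pen_nn G S (G.rad σ₀ - (K + 1) / Λ) p Λ (σ' k)))
        have f3 : Real.exp (-(p / 2)) * Real.exp (5 / 8 * p) = Real.exp (p / 8) := by
          rw [← Real.exp_add]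
          exact congrArg Real.exp (by ring)
        have f4 : 0 ≤ (i + 1) * t ^ 16 * β / 2 := by positivity
        refine lt_of_mul_lt_mul_left (a := Real.exp (-(p / 2))) ?_ (Real.exp_pos _).le
        rw [f3]
        linear_combination hB + f2 + hk + e8 + hΦ + hu + f4
      refine ⟨σ' k, e5, fun _ => e2, ?_, c2.trans a4,
        gamec_X G (pow_pos ht 25) hε1 hS2 hK hK1 hΛ hp e2 e6 e7 e4 e9, ?_⟩
      · rw [hi2]
        linarith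
      · rw [hi2, show s + (i + 1) * t ^ 16 = s + i * t ^ 16 + t ^ 16 by ring]
        linear_combination hk
  obtain ⟨σ, a1, a2, a3, a4, a5, a6⟩ := key N le_rfl
  refine ⟨σ, a1, a2, by linarith, a4.trans hr1, a5, ?_⟩
  rw [Nat.sub_self, pow_zero, mul_one] at a6
  have h1 := mul_nonneg (Real.exp_pos (-(p / 2))).le
    (gamec_pen_nn G S (G.rad σ₀ - (K + 1) / Λ) p Λ σ)
  linarith

end

end Vale.Agent.P272
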