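import Vale.Agent.P272.F.G.Defs

/-! P272 F/G/Green0 (helper22): the Green-Jensen formula on a disc. -/

open Metric Set Filter Topology Complex MeasureTheory

noncomputable section

namespace Vale.Agent.P272

theorem green0_polar (f : ℂ → ℝ) (r : ℝ) : ∫ z in ball (0 : ℂ) r, f z =
    ∫ p in Ioo 0 r ×ˢ Ioo (-Real.pi) Real.pi, p.1 * f (circleMap 0 p.1 p.2) := by
  have hm : MeasurableSet (Ioo 0 r ×ˢ Ioo (-Real.pi) Real.pi) :=
    measurableSet_Ioo.prod measurableSet_Ioo
  rw [← integral_indicator measurableSet_ball, ← Complex.integral_comp_polarCoord_symm,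
    ← inter_eq_right.2 (show Ioo 0 r ×ˢ Ioo (-Real.pi) Real.pi ⊆ polarCoord.target from
      fun p hp => ⟨hp.1.1, hp.2⟩), ← setIntegral_indicator hm]
  refine setIntegral_congr_fun polarCoord.open_target.measurableSet fun p hp => ?_
  have e : Complex.polarCoord.symm p = circleMap 0 p.1 p.2 := by
    rw [Complex.polarCoord_symm_apply, circleMap, exp_mul_I, zero_add]
    simp
  have h0 : 0 < p.1 := hp.1
  have e2 : circleMap 0 p.1 p.2 ∈ ball (0 : ℂ) r ↔ p ∈ Ioo 0 r ×ˢ Ioo (-Real.pi) Real.pi := by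
    rw [mem_ball_zero_iff, norm_circleMap_zero, abs_of_pos h0]
    exact ⟨fun h => ⟨⟨h0, h⟩, hp.2⟩, fun h => h.1.2⟩
  simp only [e]
  by_cases h : p ∈ Ioo 0 r ×ˢ Ioo (-Real.pi) Real.pi
  · rw [indicator_of_mem h, indicator_of_mem (e2.2 h), smul_eq_mul]
  · rw [indicator_of_notMem h, indicator_of_notMem (mt e2.1 h), smul_zero]

theorem green0_w {r₀ r : ℝ} (h0 : 0 ≤ r₀) (hr : 0 < r) :
    IntervalIntegrable (fun s => Real.log (r / max s r₀)) volume 0 r := by
  rcases h0.eq_or_lt with rfl | h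
  · refine ((intervalIntegrable_const (c := Real.log r)).sub
      (intervalIntegral.intervalIntegrable_log' (a := 0) (b := r))).congr fun s hs => ?_
    rw [uIoc_of_le hr.le] at hs
    simp only [max_eq_left hs.1.le, Real.log_div hr.ne' hs.1.ne']
  · refine Continuous.intervalIntegrable (Continuous.log (continuous_const.div (by fun_prop)
      fun s => (h.trans_le (le_max_right _ _)).ne') fun s => ?_) _ _
    exact (div_pos hr (h.trans_le (le_max_right _ _))).ne'

/-- The radial integration by parts. -/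
theorem green0_rad {U V W : ℝ → ℝ} {r₀ r : ℝ} (h0 : 0 ≤ r₀) (h1 : r₀ ≤ r) (hr : 0 < r)
    (hU : ∀ s ∈ Icc 0 r, HasDerivAt U (V s) s) (hV : ∀ s ∈ Icc 0 r, HasDerivAt V (W s) s)
    (hW : ContinuousOn W (Icc 0 r)) :
    ∫ s in (0 : ℝ)..r, Real.log (r / max s r₀) * (V s + s * W s) = U r - U r₀ := by
  have cU : ContinuousOn U (Icc 0 r) := fun s hs => (hU s hs).continuousAt.continuousWithinAt
  have cV : ContinuousOn V (Icc 0 r) := fun s hs => (hV s hs).continuousAt.continuousWithinAt
  have hi : IntervalIntegrable (fun s => Real.log (r / max s r₀) * (V s + s * W s)) volume 0 r :=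
    (green0_w h0 hr).mul_continuousOn (by
      rw [uIcc_of_le hr.le]; exact cV.add (continuousOn_id.mul hW))
  have i1 := hi.mono_set (c := 0) (d := r₀) (by
    rw [uIcc_of_le h0, uIcc_of_le hr.le]; exact Icc_subset_Icc le_rfl h1)
  have i2 := hi.mono_set (c := r₀) (d := r) (by
    rw [uIcc_of_le h1, uIcc_of_le hr.le]; exact Icc_subset_Icc h0 le_rfl)
  rw [← intervalIntegral.integral_add_adjacent_intervals i1 i2,
    intervalIntegral.integral_eq_sub_of_hasDerivAt_of_le h0
      (f := fun s => Real.log (r / r₀) * (s * V s))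
      (continuousOn_const.mul (continuousOn_id.mul (cV.mono (Icc_subset_Icc le_rfl h1))))
      (fun s hs => ?_) i1,
    intervalIntegral.integral_eq_sub_of_hasDerivAt_of_le h1
      (f := fun s => (Real.log r * s - s * Real.log s) * V s + U s)
      ((((continuous_const.mul continuous_id).sub Real.continuous_mul_log).continuousOn.mul
        (cV.mono (Icc_subset_Icc h0 le_rfl))).add (cU.mono (Icc_subset_Icc h0 le_rfl)))
      (fun s hs => ?_) i2]
  · rcases h0.eq_or_lt with rfl | h
    · ring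
    · rw [Real.log_div hr.ne' h.ne']
      ring
  · have hs0 : 0 < s := h0.trans_lt hs.1
    have hs1 : s ∈ Icc 0 r := ⟨hs0.le, hs.2.le⟩
    refine (((((hasDerivAt_id s).const_mul (Real.log r)).sub
      (Real.hasDerivAt_mul_log hs0.ne')).mul (hV s hs1)).add (hU s hs1)).congr_deriv ?_
    rw [max_eq_left hs.1.le, Real.log_div hr.ne' hs0.ne']
    simp only [Pi.sub_apply, id]
    ring
  · have hs1 : s ∈ Icc 0 r := ⟨hs.1.le, hs.2.le.trans h1⟩
    refine (((hasDerivAt_id s).mul (hV s hs1)).const_mul _).congr_deriv ?_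
    rw [max_eq_right hs.2.le]
    simp only [id]
    ring

theorem green0_rot (B : ℂ →L[ℝ] ℂ →L[ℝ] ℝ) (θ : ℝ) :
    B (circleMap 0 1 θ) (circleMap 0 1 θ) + B (circleMap 0 1 θ * I) (circleMap 0 1 θ * I) =
      B 1 1 + B I I := by
  have e1 : circleMap 0 1 θ = Real.cos θ • (1 : ℂ) + Real.sin θ • I := by
    rw [circleMap, exp_mul_I]; simp
  have e2 : circleMap 0 1 θ * I = (-Real.sin θ) • (1 : ℂ) + Real.cos θ • I := by
    rw [e1, add_mul, smul_mul_assoc, smul_mul_assoc, I_mul_I, one_mul, add_comm]; simp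
  rw [e2, e1]
  simp only [map_add, map_smul, ContinuousLinearMap.add_apply, ContinuousLinearMap.smul_apply,
    smul_eq_mul]
  linear_combination (B 1 1 + B I I) * Real.sin_sq_add_cos_sq θ

theorem green0_avg (u : ℂ → ℝ) (r : ℝ) : Real.circleAverage u 0 r =
    (2 * Real.pi)⁻¹ * ∫ θ in (-Real.pi)..Real.pi, u (circleMap 0 r θ) := by
  rw [Real.circleAverage_eq_integral_add (-Real.pi), smul_eq_mul,
    intervalIntegral.integral_comp_add_right (fun θ => u (circleMap 0 r θ))]
  congr 2 <;> ring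

theorem green0_ray (θ s : ℝ) :
    HasDerivAt (fun s : ℝ => circleMap 0 s θ) (circleMap 0 1 θ) s := by
  have he : ∀ s : ℝ, s • circleMap 0 1 θ = circleMap 0 s θ := fun s => by simp [circleMap]
  simpa only [he, id, one_smul] using (hasDerivAt_id s).smul_const (circleMap 0 1 θ)

theorem green0_d {D : ℂ → ℂ →L[ℝ] ℝ} {B : ℂ →L[ℝ] ℂ →L[ℝ] ℝ} {θ s : ℝ}
    (h : HasFDerivAt D B (circleMap 0 s θ)) :
    HasDerivAt (fun s : ℝ => D (circleMap 0 s θ) (circleMap 0 1 θ))
      (B (circleMap 0 1 θ) (circleMap 0 1 θ)) s := by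
  have := (HasFDerivAt.comp_hasDerivAt (f := fun s : ℝ => circleMap 0 s θ) s h
    (green0_ray θ s)).clm_apply (hasDerivAt_const s (circleMap 0 1 θ))
  rw [map_zero, add_zero] at this
  exact this

theorem green0_e {D : ℂ → ℂ →L[ℝ] ℝ} {B : ℂ →L[ℝ] ℂ →L[ℝ] ℝ} {θ s : ℝ}
    (h : HasFDerivAt D B (circleMap 0 s θ)) :
    HasDerivAt (fun θ : ℝ => D (circleMap 0 s θ) (circleMap 0 1 θ * I))
      (s * B (circleMap 0 1 θ * I) (circleMap 0 1 θ * I) -
        D (circleMap 0 s θ) (circleMap 0 1 θ)) θ := by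
  have he : circleMap 0 s θ * I = s • (circleMap 0 1 θ * I) := by simp [circleMap, mul_assoc]
  have h1 : HasDerivAt (circleMap 0 s) (s • (circleMap 0 1 θ * I)) θ :=
    he ▸ hasDerivAt_circleMap 0 s θ
  refine ((h.comp_hasDerivAt θ h1).clm_apply
    ((hasDerivAt_circleMap 0 1 θ).mul_const I)).congr_deriv ?_
  rw [map_smul, mul_assoc (circleMap 0 1 θ) I I, I_mul_I, mul_neg_one, map_neg]
  rfl

/-- The Green-Jensen formula. -/
theorem green {u : ℂ → ℝ} {r₀ r : ℝ} (h0 : 0 ≤ r₀) (h1 : r₀ ≤ r)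
    (hu : ∀ z ∈ closedBall (0 : ℂ) r, ContDiffAt ℝ 2 u z) :
    Real.circleAverage u 0 r - Real.circleAverage u 0 r₀ = grn (lap u) r₀ r := by
  rcases (h0.trans h1).eq_or_lt with rfl | hr
  · rw [le_antisymm h1 h0]
    simp [grn]
  have hπ : -Real.pi ≤ Real.pi := by linarith [Real.pi_pos]
  have hm : ∀ s ∈ Icc 0 r, ∀ θ, circleMap 0 s θ ∈ closedBall (0 : ℂ) r := fun s hs θ => by
    rw [mem_closedBall_zero_iff, norm_circleMap_zero, abs_of_nonneg hs.1]
    exact hs.2
  have d1 : ∀ z ∈ closedBall (0 : ℂ) r, HasFDerivAt u (fderiv ℝ u z) z := fun z hz =>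
    ((hu z hz).differentiableAt two_ne_zero).hasFDerivAt
  have k1 : ∀ z ∈ closedBall (0 : ℂ) r, ContDiffAt ℝ 1 (fderiv ℝ u) z := fun z hz =>
    (hu z hz).fderiv_right (m := 1) le_rfl
  have d2 : ∀ z ∈ closedBall (0 : ℂ) r, HasFDerivAt (fderiv ℝ u) (fderiv ℝ (fderiv ℝ u) z) z :=
    fun z hz => ((k1 z hz).differentiableAt one_ne_zero).hasFDerivAt
  have c1 : ContinuousOn (fderiv ℝ u) (closedBall 0 r) := fun z hz =>
    (k1 z hz).continuousAt.continuousWithinAt
  have c2 : ContinuousOn (fderiv ℝ (fderiv ℝ u)) (closedBall 0 r) := fun z hz =>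
    ((k1 z hz).fderiv_right (m := 0) le_rfl).continuousAt.continuousWithinAt
  have cP : Continuous fun p : ℝ × ℝ => circleMap 0 p.1 p.2 := by unfold circleMap; fun_prop
  have cE : Continuous fun p : ℝ × ℝ => circleMap 0 1 p.2 := by fun_prop
  have mP : MapsTo (fun p : ℝ × ℝ => circleMap 0 p.1 p.2) (Icc 0 r ×ˢ Icc (-Real.pi) Real.pi)
      (closedBall 0 r) := fun p hp => hm _ hp.1 _
  have a1 := (c1.comp cP.continuousOn mP).clm_apply cE.continuousOn
  have a2 := ((c2.comp cP.continuousOn mP).clm_apply cE.continuousOn).clm_apply cE.continuousOn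
  have a3 := ((c2.comp cP.continuousOn mP).clm_apply (cE.mul_const I).continuousOn).clm_apply
    (cE.mul_const I).continuousOn
  have iw : IntegrableOn (fun p : ℝ × ℝ => Real.log (r / max p.1 r₀))
      (Icc 0 r ×ˢ Icc (-Real.pi) Real.pi) := by
    rw [IntegrableOn, Measure.volume_eq_prod, ← Measure.prod_restrict]
    exact Integrable.comp_fst (f := fun s => Real.log (r / max s r₀))
      ((intervalIntegrable_iff_integrableOn_Icc_of_le hr.le).1 (green0_w h0 hr)) _
  have hK := (isCompact_Icc (a := (0 : ℝ)) (b := r)).prod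
    (isCompact_Icc (a := -Real.pi) (b := Real.pi))
  have sub : Ioo 0 r ×ˢ Ioo (-Real.pi) Real.pi ⊆ Icc 0 r ×ˢ Icc (-Real.pi) Real.pi :=
    prod_mono Ioo_subset_Icc_self Ioo_subset_Icc_self
  have iA := (iw.mul_continuousOn (a1.add (continuousOn_fst.mul a2)) hK).mono_set sub
  have iB := (iw.mul_continuousOn ((continuousOn_fst.mul a3).sub a1) hK).mono_set sub
  simp only [Function.comp, Pi.add_apply, Pi.mul_apply, Pi.sub_apply] at iA iB
  have ci : ∀ s ∈ Icc 0 r, IntervalIntegrable (fun θ => u (circleMap 0 s θ)) volume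
      (-Real.pi) Real.pi := fun s hs => (continuous_iff_continuousAt.2 fun θ =>
    (hu _ (hm s hs θ)).continuousAt.comp (continuous_circleMap 0 s).continuousAt).intervalIntegrable
      _ _
  rw [grn, green0_polar, green0_avg, green0_avg, ← mul_sub,
    ← intervalIntegral.integral_sub (ci r ⟨hr.le, le_rfl⟩) (ci r₀ ⟨h0, h1⟩),
    setIntegral_congr_fun (measurableSet_Ioo.prod measurableSet_Ioo) (g := fun p : ℝ × ℝ =>
      Real.log (r / max p.1 r₀) * (fderiv ℝ u (circleMap 0 p.1 p.2) (circleMap 0 1 p.2) +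
        p.1 * fderiv ℝ (fderiv ℝ u) (circleMap 0 p.1 p.2) (circleMap 0 1 p.2) (circleMap 0 1 p.2)) +
      Real.log (r / max p.1 r₀) * (p.1 * fderiv ℝ (fderiv ℝ u) (circleMap 0 p.1 p.2)
        (circleMap 0 1 p.2 * I) (circleMap 0 1 p.2 * I) -
          fderiv ℝ u (circleMap 0 p.1 p.2) (circleMap 0 1 p.2))) (fun p hp => by
      simp only [lap, ← green0_rot _ p.2, norm_circleMap_zero, abs_of_pos hp.1.1]
      ring), integral_add iA iB]
  rw [IntegrableOn, Measure.volume_eq_prod, ← Measure.prod_restrict] at iA iB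
  rw [Measure.volume_eq_prod, ← Measure.prod_restrict, integral_prod_symm _ iA, integral_prod _ iB,
    intervalIntegral.integral_of_le hπ, integral_Ioc_eq_integral_Ioo,
    setIntegral_eq_zero_of_forall_eq_zero (t := Ioo 0 r) fun s hs => ?_, add_zero]
  · congr 1
    refine setIntegral_congr_fun measurableSet_Ioo fun θ hθ => ?_
    simp only []
    rw [← integral_Ioc_eq_integral_Ioo, ← intervalIntegral.integral_of_le hr.le]
    refine (green0_rad (U := fun s => u (circleMap 0 s θ))
      (V := fun s => fderiv ℝ u (circleMap 0 s θ) (circleMap 0 1 θ))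
      (W := fun s => fderiv ℝ (fderiv ℝ u) (circleMap 0 s θ) (circleMap 0 1 θ) (circleMap 0 1 θ))
      h0 h1 hr (fun s hs => HasFDerivAt.comp_hasDerivAt (f := fun s : ℝ => circleMap 0 s θ) s
        (d1 _ (hm s hs θ)) (green0_ray θ s))
      (fun s hs => green0_d (d2 _ (hm s hs θ))) ?_).symm
    have := a2.comp (s := Icc 0 r) (Continuous.prodMk_left θ).continuousOn
      fun s hs => ⟨hs, Ioo_subset_Icc_self hθ⟩
    simp only [Function.comp_def] at this
    exact this
  · have hs' : s ∈ Icc 0 r := Ioo_subset_Icc_self hs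
    simp only []
    rw [integral_const_mul, ← integral_Ioc_eq_integral_Ioo, ← intervalIntegral.integral_of_le hπ,
      intervalIntegral.integral_eq_sub_of_hasDerivAt
        (f := fun θ => fderiv ℝ u (circleMap 0 s θ) (circleMap 0 1 θ * I))
        (fun θ _ => green0_e (d2 _ (hm s hs' θ))) ?_]
    · have e : ∀ s : ℝ, circleMap 0 s Real.pi = circleMap 0 s (-Real.pi) := fun s => by
        rw [← periodic_circleMap 0 s (-Real.pi)]
        congr 1
        ring
      rw [e, e, sub_self, mul_zero]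
    · refine ContinuousOn.intervalIntegrable ?_
      rw [uIcc_of_le hπ]
      have := ((continuousOn_fst.mul a3).sub a1).comp (s := Icc (-Real.pi) Real.pi)
        (Continuous.prodMk_right s).continuousOn fun θ hθ => ⟨hs', hθ⟩
      simp only [Function.comp_def, Pi.mul_apply, Pi.sub_apply] at this
      exact this

end Vale.Agent.P272
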