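import Vale.Agent.P272.F.G.Green0

/-! P272 F/G/Green1 (helper22): the algebra of the Green integral. -/

open Metric Set Filter Topology Complex MeasureTheory

noncomputable section

namespace Vale.Agent.P272

theorem grn_w {r₀ : ℝ} (h0 : 0 ≤ r₀) (r : ℝ) :
    IntegrableOn (fun z : ℂ => Real.log (r / max ‖z‖ r₀)) (closedBall 0 r) := by
  rcases le_or_gt r 0 with hr | hr
  · refine IntegrableOn.mono_set (t := {0}) (integrableOn_singleton (by simp) (by simp))
      fun z hz => ?_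
    rw [mem_closedBall_zero_iff] at hz
    exact norm_le_zero_iff.1 (hz.trans hr)
  have h1 := (intervalIntegrable_iff_integrableOn_Ioc_of_le hr.le).1
    ((green0_w h0 hr).mul_continuousOn (g := fun s => s) continuousOn_id)
  have h2 : IntegrableOn (fun s : ℝ => s ^ (Module.finrank ℝ ℂ - 1) •
      (Iic r).indicator (fun s => Real.log (r / max s r₀)) s) (Ioi 0) := by
    rw [finrank_real_complex]
    refine (((integrable_indicator_iff measurableSet_Ioc).2 h1).integrableOn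
      (s := Ioi 0)).congr_fun (fun s hs => ?_) measurableSet_Ioi
    by_cases h : s ≤ r
    · simp [indicator_of_mem (show s ∈ Ioc 0 r from ⟨hs, h⟩),
        indicator_of_mem (show s ∈ Iic r from h), mul_comm]
    · simp [indicator_of_notMem (show s ∉ Ioc 0 r from fun k => h k.2),
        indicator_of_notMem (show s ∉ Iic r from h)]
  rw [← integrable_indicator_iff measurableSet_closedBall]
  refine ((integrable_fun_norm_addHaar (volume : Measure ℂ)).2 h2).congr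
    (Eventually.of_forall fun z => ?_)
  by_cases h : ‖z‖ ≤ r
  · simp [indicator_of_mem (show ‖z‖ ∈ Iic r from h),
      indicator_of_mem (mem_closedBall_zero_iff.2 h)]
  · simp [indicator_of_notMem (show ‖z‖ ∉ Iic r from h),
      indicator_of_notMem (mt mem_closedBall_zero_iff.1 h)]

theorem grn_int {u : ℂ → ℝ} {r₀ r : ℝ} (h0 : 0 ≤ r₀) (hu : ContinuousOn u (closedBall 0 r)) :
    IntegrableOn (fun z : ℂ => Real.log (r / max ‖z‖ r₀) * u z) (ball 0 r) :=
  ((grn_w h0 r).mul_continuousOn hu (isCompact_closedBall 0 r)).mono_set ball_subset_closedBall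

theorem grn_w_nonneg {r₀ r : ℝ} (h1 : r₀ ≤ r) {z : ℂ} (hz : ‖z‖ ≤ r) :
    0 ≤ Real.log (r / max ‖z‖ r₀) := by
  rcases ((norm_nonneg z).trans (le_max_left _ r₀)).eq_or_lt with h | h
  · rw [← h, div_zero, Real.log_zero]
  · exact Real.log_nonneg ((one_le_div h).2 (max_le hz h1))

theorem grn_congr {u v : ℂ → ℝ} {r₀ r : ℝ} (h : ∀ z, ‖z‖ < r → u z = v z) :
    grn u r₀ r = grn v r₀ r := by
  unfold grn
  rw [setIntegral_congr_fun measurableSet_ball fun z hz => by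
    rw [h z (mem_ball_zero_iff.1 hz)]]

theorem grn_mono {u v : ℂ → ℝ} {r₀ r : ℝ} (h0 : 0 ≤ r₀) (h1 : r₀ ≤ r)
    (hu : ContinuousOn u (closedBall 0 r)) (hv : ContinuousOn v (closedBall 0 r))
    (h : ∀ z, ‖z‖ < r → u z ≤ v z) : grn u r₀ r ≤ grn v r₀ r :=
  mul_le_mul_of_nonneg_left (setIntegral_mono_on (grn_int h0 hu) (grn_int h0 hv)
    measurableSet_ball fun z hz => mul_le_mul_of_nonneg_left (h z (mem_ball_zero_iff.1 hz))
      (grn_w_nonneg h1 (mem_ball_zero_iff.1 hz).le)) (by positivity)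

theorem grn_nonneg {u : ℂ → ℝ} {r₀ r : ℝ} (h1 : r₀ ≤ r) (h : ∀ z, ‖z‖ < r → 0 ≤ u z) :
    0 ≤ grn u r₀ r :=
  mul_nonneg (by positivity) (setIntegral_nonneg measurableSet_ball fun z hz =>
    mul_nonneg (grn_w_nonneg h1 (mem_ball_zero_iff.1 hz).le) (h z (mem_ball_zero_iff.1 hz)))

theorem grn_add {u v : ℂ → ℝ} {r₀ r : ℝ} (h0 : 0 ≤ r₀) (hu : ContinuousOn u (closedBall 0 r))
    (hv : ContinuousOn v (closedBall 0 r)) :
    grn (fun z => u z + v z) r₀ r = grn u r₀ r + grn v r₀ r := by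
  simp only [grn, mul_add]
  rw [integral_add (grn_int h0 hu) (grn_int h0 hv), mul_add]

theorem grn_sub {u v : ℂ → ℝ} {r₀ r : ℝ} (h0 : 0 ≤ r₀) (hu : ContinuousOn u (closedBall 0 r))
    (hv : ContinuousOn v (closedBall 0 r)) :
    grn (fun z => u z - v z) r₀ r = grn u r₀ r - grn v r₀ r := by
  simp only [grn, mul_sub]
  rw [integral_sub (grn_int h0 hu) (grn_int h0 hv), mul_sub]

theorem grn_mul (c : ℝ) (u : ℂ → ℝ) (r₀ r : ℝ) :
    grn (fun z => c * u z) r₀ r = c * grn u r₀ r := by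
  simp only [grn, mul_left_comm _ c, integral_const_mul]

theorem grn_sum {ι : Type} (s : Finset ι) {u : ι → ℂ → ℝ} {r₀ r : ℝ} (h0 : 0 ≤ r₀)
    (hu : ∀ i ∈ s, ContinuousOn (u i) (closedBall 0 r)) :
    grn (fun z => ∑ i ∈ s, u i z) r₀ r = ∑ i ∈ s, grn (u i) r₀ r := by
  simp only [grn, Finset.mul_sum]
  rw [integral_finset_sum _ fun i hi => grn_int h0 (hu i hi), Finset.mul_sum]

theorem lap_normSq (z : ℂ) : lap (fun z => ‖z‖ ^ 2) z = 4 := by
  have h : fderiv ℝ (fun z : ℂ => ‖z‖ ^ 2) = fun z => (2 : ℝ) • innerSL ℝ z := funext fun z => by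
    rw [fderiv_norm_sq_apply, two_nsmul, two_smul]
  have h2 : HasFDerivAt (fun z : ℂ => (2 : ℝ) • innerSL ℝ z) _ z :=
    ((innerSL ℝ : ℂ →L[ℝ] ℂ →L[ℝ] ℝ).hasFDerivAt (x := z)).const_smul (2 : ℝ)
  rw [lap, h, HasFDerivAt.fderiv h2]
  change 2 * inner ℝ (1 : ℂ) 1 + 2 * inner ℝ I I = 4
  rw [real_inner_self_eq_norm_sq, real_inner_self_eq_norm_sq, norm_one, norm_I]
  norm_num

theorem grn_const {r₀ r : ℝ} (h0 : 0 ≤ r₀) (h1 : r₀ ≤ r) (c : ℝ) :
    grn (fun _ => c) r₀ r = c * (r ^ 2 - r₀ ^ 2) / 4 := by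
  have h := green (u := fun z => ‖z‖ ^ 2) h0 h1 fun z _ => (contDiff_norm_sq ℝ).contDiffAt
  have e : ∀ s : ℝ, Real.circleAverage (fun z : ℂ => ‖z‖ ^ 2) 0 s = s ^ 2 := fun s =>
    Real.circleAverage_const_on_circle fun z hz => by
      rw [mem_sphere_zero_iff_norm.1 hz, sq_abs]
  rw [e, e, funext lap_normSq] at h
  have h3 := grn_mul (c / 4) (fun _ => 4) r₀ r
  rw [← h, div_mul_cancel₀ _ four_ne_zero] at h3
  rw [h3]
  ring

/-- Splitting at an intermediate radius. -/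
theorem grn_split {u : ℂ → ℝ} {r₀ r₁ r : ℝ} (h0 : 0 ≤ r₀) (h1 : r₀ ≤ r₁) (h2 : r₁ ≤ r)
    (hu : ContinuousOn u (closedBall 0 r)) : grn u r₀ r = grn u r₀ r₁ + grn u r₁ r := by
  have i1 := grn_int h0 (hu.mono (closedBall_subset_closedBall h2))
  have i2 := (integrable_indicator_iff measurableSet_ball).2 i1
  unfold grn
  rw [← mul_add, ← inter_eq_right.2 (ball_subset_ball h2 : ball (0 : ℂ) r₁ ⊆ _),
    ← setIntegral_indicator measurableSet_ball,
    ← integral_add i2.integrableOn (grn_int (h0.trans h1) hu)]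
  congr 1
  refine setIntegral_congr_ae measurableSet_ball ?_
  filter_upwards [compl_mem_ae_iff.2 (measure_singleton (0 : ℂ))] with z hz hr
  have z0 : 0 < ‖z‖ := norm_pos_iff.2 hz
  have m0 : 0 < max ‖z‖ r₀ := z0.trans_le (le_max_left _ _)
  have r0 : 0 < r := z0.trans (mem_ball_zero_iff.1 hr)
  by_cases h : ‖z‖ < r₁
  · rw [indicator_of_mem (mem_ball_zero_iff.2 h), max_eq_right h.le, ← add_mul,
      Real.log_div r0.ne' m0.ne', Real.log_div (z0.trans h).ne' m0.ne',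
      Real.log_div r0.ne' (z0.trans h).ne']
    ring
  · rw [indicator_of_notMem (mt mem_ball_zero_iff.1 h), zero_add, max_eq_left (not_lt.1 h),
      max_eq_left (h1.trans (not_lt.1 h))]

theorem grn_le {u : ℂ → ℝ} {r₀ r c : ℝ} (h0 : 0 ≤ r₀) (h1 : r₀ ≤ r)
    (hu : ContinuousOn u (closedBall 0 r)) (h : ∀ z, ‖z‖ < r → u z ≤ c) :
    grn u r₀ r ≤ c * (r ^ 2 - r₀ ^ 2) / 4 :=
  (grn_mono h0 h1 hu continuousOn_const h).trans_eq (grn_const h0 h1 c)

theorem le_grn {u : ℂ → ℝ} {r₀ r c : ℝ} (h0 : 0 ≤ r₀) (h1 : r₀ ≤ r)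
    (hu : ContinuousOn u (closedBall 0 r)) (h : ∀ z, ‖z‖ < r → c ≤ u z) :
    c * (r ^ 2 - r₀ ^ 2) / 4 ≤ grn u r₀ r :=
  (grn_const h0 h1 c).symm.trans_le (grn_mono h0 h1 continuousOn_const hu h)

end Vale.Agent.P272
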