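import Vale.Agent.P272.F.G.Defs
import Vale.Agent.P272.F.Kit.Main
import Vale.Agent.P272.F.R.Dir

/-! P272 F/G/Grp (helper71): a finite set of unitaries that averages Hermitian forms to their
trace, and the choice of a good vector by the maximum principle. -/

open Metric Set Filter Topology Complex
open scoped ContDiff

noncomputable section

namespace Vale.Agent.P272

variable {n : ℕ}

theorem grp_uni {U : L n} (h : ∀ a, ‖U a‖ = ‖a‖) : Uni U := by
  have h1 : star U * U = 1 := (ContinuousLinearMap.norm_map_iff_adjoint_comp_self U).1 h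
  refine ⟨h1, ?_⟩
  obtain ⟨hu, -⟩ := unit_of_lo (V := U) zero_le_one fun w => by rw [h, one_mul]
  obtain ⟨u, rfl⟩ := hu
  rw [← Units.inv_eq_of_mul_eq_one_left h1]
  exact u.mul_inv

theorem Uni.norm_map {U : L n} (h : Uni U) (a : E n) : ‖U a‖ = ‖a‖ :=
  (ContinuousLinearMap.norm_map_iff_adjoint_comp_self U).2 h.1 a

theorem Uni.norm_det {U : L n} (h : Uni U) : ‖U.det‖ = 1 := by
  have h1 := congrArg (fun S : L n => ‖S.det‖) h.1
  have h2 : (1 : L n).det = 1 := LinearMap.det_id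
  simp only [det_mul', norm_mul, norm_det_star, h2, norm_one] at h1
  nlinarith [norm_nonneg U.det]

theorem Uni.maR {U : L n} (h : Uni U) (l : ℝ) : maR l U = n * Real.exp (l / n) := by
  rw [← maR_one]
  have h2 : (1 : L n).det = 1 := LinearMap.det_id
  simp only [Vale.Agent.P272.maR, h.norm_det, h2, norm_one]

theorem exists_uni (i : Fin n) {v : E n} (hv : ‖v‖ = 1) : ∃ U : L n, Uni U ∧ U (eb i) = v := by
  have ho : Orthonormal ℂ (({i} : Set (Fin n)).domRestrict fun _ : Fin n => v) := by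
    refine ⟨fun _ => hv, fun a b hab => absurd (Subsingleton.elim a b) hab⟩
  obtain ⟨b, hb⟩ := ho.exists_orthonormalBasis_extension_of_card_eq (by simp)
  refine ⟨b.repr.symm.toContinuousLinearEquiv, grp_uni fun a => b.repr.symm.norm_map a, ?_⟩
  exact (b.repr_symm_single i).trans (hb i rfl)

/-- Signs and cyclic shifts. -/
abbrev Gp (n : ℕ) : Type := (Fin n → ℤˣ) × Fin n

/-- The unitary attached to signs and a shift. -/
def gT [NeZero n] (g : Gp n) : L n :=
  ∑ j, (((g.1 j : ℤ) : ℝ) : ℂ) • (EuclideanSpace.proj (j + g.2) : E n →L[ℂ] ℂ).smulRight (eb j)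

theorem gT_app [NeZero n] (g : Gp n) (u : E n) :
    gT g u = ∑ j, ((g.1 j : ℤ) : ℝ) • (u (j + g.2) • eb j) := by
  simp [gT, ← Complex.coe_smul]

theorem grp_sq (e : ℤˣ) : ((e : ℤ) : ℝ) * ((e : ℤ) : ℝ) = 1 := by
  rcases Int.units_eq_one_or e with rfl | rfl <;> simp

theorem grp_shift [NeZero n] (u : E n) (j : Fin n) : ∑ l, ‖u (j + l)‖ ^ 2 = ‖u‖ ^ 2 := by
  rw [EuclideanSpace.norm_sq_eq]
  exact Equiv.sum_comp (Equiv.addLeft j) fun i => ‖u i‖ ^ 2

theorem gT_uni [NeZero n] (g : Gp n) : Uni (gT g) := by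
  refine grp_uni fun u => ?_
  have h1 : ∀ j, ‖gT g u j‖ ^ 2 = ‖u (j + g.2)‖ ^ 2 := by
    intro j
    have h2 : gT g u j = ((g.1 j : ℤ) : ℝ) • u (j + g.2) := by
      rw [gT_app]
      simp [eb, Pi.single_apply]
    rw [h2, norm_smul, mul_pow, Real.norm_eq_abs, sq_abs, sq, grp_sq, one_mul]
  rw [← sq_eq_sq₀ (norm_nonneg _) (norm_nonneg _), EuclideanSpace.norm_sq_eq,
    EuclideanSpace.norm_sq_eq]
  simp only [h1]
  exact Equiv.sum_comp (Equiv.addRight g.2) fun i => ‖u i‖ ^ 2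

theorem grp_off {j k : Fin n} (h : j ≠ k) :
    ∑ e : Fin n → ℤˣ, ((e j : ℤ) : ℝ) * ((e k : ℤ) : ℝ) = 0 := by
  have h1 := Equiv.sum_comp (Equiv.mulLeft (Pi.mulSingle j (-1) : Fin n → ℤˣ))
    fun e : Fin n → ℤˣ => ((e j : ℤ) : ℝ) * ((e k : ℤ) : ℝ)
  simp only [Equiv.coe_mulLeft, Pi.mul_apply, Pi.mulSingle_eq_same, Pi.mulSingle_eq_of_ne h.symm,
    one_mul, neg_mul, Units.val_neg, Int.cast_neg, Finset.sum_neg_distrib] at h1
  linarith

theorem grp_bil (B : E n →L[ℝ] E n →L[ℝ] ℝ) (x : Fin n → E n) :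
    ∑ e : Fin n → ℤˣ, B (∑ j, ((e j : ℤ) : ℝ) • x j) (∑ j, ((e j : ℤ) : ℝ) • x j) =
      Fintype.card (Fin n → ℤˣ) * ∑ j, B (x j) (x j) := by
  have h1 : ∀ e : Fin n → ℤˣ, B (∑ j, ((e j : ℤ) : ℝ) • x j) (∑ j, ((e j : ℤ) : ℝ) • x j) =
      ∑ j, ∑ k, ((e j : ℤ) : ℝ) * ((e k : ℤ) : ℝ) * B (x k) (x j) := by
    intro e
    simp only [map_sum, map_smul, sum_apply, smul_apply, smul_eq_mul,
      Finset.mul_sum, mul_assoc]
  simp only [h1]
  rw [Finset.sum_comm, Finset.mul_sum]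
  refine Finset.sum_congr rfl fun j _ => ?_
  rw [Finset.sum_comm, Finset.sum_eq_single j]
  · simp only [grp_sq, one_mul, Finset.sum_const, Finset.card_univ, nsmul_eq_mul]
  · intro k _ hk
    rw [← Finset.sum_mul, grp_off hk.symm, zero_mul]
  · simp

theorem grp_avg [NeZero n] (w : E n → ℝ) (y : E n) (V : L n) (u : E n) :
    ∑ g : Gp n, levi w y (V (gT g u)) = Fintype.card (Gp n) * (‖u‖ ^ 2 / n) * trL w y V := by
  have hn : (n : ℝ) ≠ 0 := Nat.cast_ne_zero.2 (NeZero.ne n)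
  have h1 : ∀ l : Fin n, ∑ e : Fin n → ℤˣ, levi w y (V (gT (e, l) u)) =
      Fintype.card (Fin n → ℤˣ) * ∑ j, ‖u (j + l)‖ ^ 2 * levi w y (V (eb j)) := by
    intro l
    have a1 := grp_bil (fderiv ℝ (fderiv ℝ w) y) fun j => u (j + l) • V (eb j)
    have a2 := grp_bil (fderiv ℝ (fderiv ℝ w) y) fun j => I • u (j + l) • V (eb j)
    have a3 : ∀ e : Fin n → ℤˣ, V (gT (e, l) u) = ∑ j, ((e j : ℤ) : ℝ) • (u (j + l) • V (eb j)) := by
      intro e
      simp only [gT_app, map_sum, map_smul, ContinuousLinearMap.map_smul_of_tower]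
    have a4 : ∀ e : Fin n → ℤˣ, I • V (gT (e, l) u) =
        ∑ j, ((e j : ℤ) : ℝ) • (I • u (j + l) • V (eb j)) := by
      intro e
      rw [a3, Finset.smul_sum]
      exact Finset.sum_congr rfl fun j _ => smul_comm _ _ _
    simp only [← levi_vec]
    simp only [levi, a4]
    simp only [a3]
    rw [← Finset.sum_div, ← Finset.sum_div, Finset.sum_add_distrib, Finset.sum_add_distrib, a1, a2]
    ring
  rw [Fintype.sum_prod_type_right]
  simp only [h1]
  rw [← Finset.mul_sum, Finset.sum_comm]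
  simp only [← Finset.sum_mul, grp_shift]
  rw [← Finset.mul_sum, trL, Fintype.card_prod, Fintype.card_fin]
  push_cast
  field_simp

/-- The maximum principle picks a vector of length `δ` with a gain on the average over any finite
family of unitaries. -/
theorem grp_pick (hn : 1 ≤ n) {κ : Type} [Fintype κ] {T : κ → L n} (hT : ∀ k, Uni (T k))
    {Φ : E n → ℝ} {δ c : ℝ} (hδ : 0 < δ) (hΦ : ∀ u, ‖u‖ ≤ δ → ContDiffAt ℝ 2 Φ u)
    (h : ∀ u, ‖u‖ < δ → ∀ U, Uni U → n * c ≤ trL Φ u U) :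
    ∃ u : E n, ‖u‖ = δ ∧ Fintype.card κ * (Φ 0 + c * δ ^ 2) ≤ ∑ k, Φ (T k u) := by
  have hs1 : 0 < hs (1 : L n) := by
    rw [hs_one]
    exact_mod_cast hn
  have hc : ∀ k u, ‖u‖ ≤ δ → ContDiffAt ℝ 2 (fun u => Φ (T k u)) u := fun k u hu =>
    (hΦ _ (((hT k).norm_map u).trans_le hu)).comp u
      ((T k).restrictScalars ℝ).contDiff.contDiffAt
  have hsum : ∀ u, ‖u‖ ≤ δ → ContDiffAt ℝ 2 (fun u => ∑ k, Φ (T k u)) u := fun u hu =>
    ContDiffAt.sum fun k _ => hc k u hu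
  have hne : (sphere (0 : E n) δ).Nonempty := by
    refine ⟨(δ : ℂ) • eb ⟨0, hn⟩, ?_⟩
    simp [norm_smul, lin_eb, hδ.le]
  obtain ⟨u, hu, hm⟩ := (isCompact_sphere (0 : E n) δ).exists_isMaxOn hne
    (f := fun u => ∑ k, Φ (T k u)) fun u hu =>
      (hsum u (mem_sphere_zero_iff_norm.1 hu).le).continuousAt.continuousWithinAt
  refine ⟨u, mem_sphere_zero_iff_norm.1 hu, ?_⟩
  have key := R.vmax (f := fun u => ∑ k, Φ (T k u)) (x := 0) (r := δ)
    (w := fun y => Fintype.card κ * c * ‖y - 0‖ ^ 2 +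
      (∑ k, Φ (T k u) - Fintype.card κ * c * δ ^ 2)) (k := Fintype.card κ * (n * c)) hs1
    (fun y hy => (hsum y (mem_closedBall_zero_iff.1 hy)).continuousAt.continuousWithinAt)
    (fun y hy q hq => ?_) (pv_sq_smooth _ _ _) (fun y _ => ?_) (fun y hy => ?_) 0
    (mem_closedBall_self hδ.le)
  · simp only [map_zero, Finset.sum_const, Finset.card_univ, nsmul_eq_mul, sub_self, norm_zero]
      at key
    nlinarith
  · have hy' := mem_ball_zero_iff.1 hy
    refine le_trans ?_ (R.rt_tch (hsum y hy'.le) hq 1)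
    rw [R.rt_sum _ fun k _ => hc k y hy'.le, ← nsmul_eq_mul, ← Finset.card_univ]
    refine Finset.card_nsmul_le_sum _ _ _ fun k _ => ?_
    refine (h _ (((hT k).norm_map y).trans_lt hy') _ (hT k)).trans (le_of_eq ?_)
    refine Finset.sum_congr rfl fun i _ => ?_
    have h1 := levi_comp (u := Φ) (T := T k) (y := y)
      (Eventually.of_forall fun z => (T k).differentiableAt)
      (hΦ _ (((hT k).norm_map y).trans_le hy'.le)) (eb i)
    rw [(T k).fderiv] at h1
    exact h1.symm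
  · rw [pv_trL_sq, hs_one]
    exact le_of_eq (by ring)
  · have h1 := hm hy
    rw [sub_zero, mem_sphere_zero_iff_norm.1 hy]
    simp only [mem_ofPred_eq] at h1
    linarith

end Vale.Agent.P272
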