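import Vale.Agent.P272.F.G.Green1

/-! P272 F/G/Har (helper22): a Harnack type bound and the lower bound for the exponent. -/

open Metric Set Filter Topology Complex MeasureTheory

noncomputable section

namespace Vale.Agent.P272

theorem grn_polar {u : ℂ → ℝ} {r₀ r : ℝ} (h0 : 0 ≤ r₀) (hr : 0 < r)
    (hu : ContinuousOn u (closedBall 0 r)) :
    IntegrableOn (fun s => Real.log (r / max s r₀) * (s * Real.circleAverage u 0 s)) (Ioo 0 r) ∧
    grn u r₀ r = ∫ s in Ioo 0 r, Real.log (r / max s r₀) * (s * Real.circleAverage u 0 s) := by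
  have hπ : -Real.pi ≤ Real.pi := by linarith [Real.pi_pos]
  have cP : Continuous fun p : ℝ × ℝ => circleMap 0 p.1 p.2 := by unfold circleMap; fun_prop
  have mP : MapsTo (fun p : ℝ × ℝ => circleMap 0 p.1 p.2) (Icc 0 r ×ˢ Icc (-Real.pi) Real.pi)
      (closedBall 0 r) := fun p hp => by
    rw [mem_closedBall_zero_iff, norm_circleMap_zero, abs_of_nonneg hp.1.1]
    exact hp.1.2
  have iw : IntegrableOn (fun p : ℝ × ℝ => Real.log (r / max p.1 r₀))
      (Icc 0 r ×ˢ Icc (-Real.pi) Real.pi) := by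
    rw [IntegrableOn, Measure.volume_eq_prod, ← Measure.prod_restrict]
    exact Integrable.comp_fst (f := fun s => Real.log (r / max s r₀))
      ((intervalIntegrable_iff_integrableOn_Icc_of_le hr.le).1 (green0_w h0 hr)) _
  have iA := (iw.mul_continuousOn (continuousOn_fst.mul (hu.comp cP.continuousOn mP))
    (isCompact_Icc.prod isCompact_Icc)).mono_set
      (prod_mono Ioo_subset_Icc_self Ioo_subset_Icc_self)
  simp only [Function.comp, Pi.mul_apply] at iA
  rw [IntegrableOn, Measure.volume_eq_prod, ← Measure.prod_restrict] at iA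
  have e : ∀ s, (2 * Real.pi)⁻¹ * ∫ θ in Ioo (-Real.pi) Real.pi,
      Real.log (r / max s r₀) * (s * u (circleMap 0 s θ)) =
        Real.log (r / max s r₀) * (s * Real.circleAverage u 0 s) := fun s => by
    rw [green0_avg, intervalIntegral.integral_of_le hπ, integral_Ioc_eq_integral_Ioo,
      integral_const_mul, integral_const_mul]
    ring
  refine ⟨by simpa only [e, IntegrableOn] using
    iA.integral_prod_left.const_mul (2 * Real.pi)⁻¹, ?_⟩
  rw [grn, green0_polar, setIntegral_congr_fun (measurableSet_Ioo.prod measurableSet_Ioo)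
    (g := fun p : ℝ × ℝ => Real.log (r / max p.1 r₀) * (p.1 * u (circleMap 0 p.1 p.2)))
    (fun p hp => by
      simp only [norm_circleMap_zero, abs_of_pos hp.1.1]
      ring), Measure.volume_eq_prod, ← Measure.prod_restrict, integral_prod _ iA,
    ← integral_const_mul]
  simp only [e]

theorem lap_cont {p : ℂ → ℝ} {z : ℂ} (h : ContDiffAt ℝ 2 p z) : ContinuousAt (lap p) z := by
  have h1 := ((h.fderiv_right (m := 1) le_rfl).fderiv_right (m := 0) le_rfl).continuousAt
  exact ((h1.clm_apply continuousAt_const).clm_apply continuousAt_const).add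
    ((h1.clm_apply continuousAt_const).clm_apply continuousAt_const)

theorem grn_conv {u : ℂ → ℝ} {s r₀ r : ℝ} (hs : 0 < s) (h0 : s ≤ r₀) (h1 : r₀ ≤ r)
    (hu : ContinuousOn u (closedBall 0 r)) (h : ∀ z, ‖z‖ < r → 0 ≤ u z) :
    Real.log (r / r₀) * grn u s r ≤ Real.log (r / s) * grn u r₀ r := by
  have r0 : 0 < r₀ := hs.trans_le h0
  have hr : 0 < r := r0.trans_le h1
  have ab : Real.log (r / r₀) ≤ Real.log (r / s) :=
    Real.log_le_log (div_pos hr r0) (div_le_div_of_nonneg_left hr.le hs h0)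
  have a0 : 0 ≤ Real.log (r / r₀) := Real.log_nonneg ((one_le_div r0).2 h1)
  rw [grn, grn, mul_left_comm, mul_left_comm (Real.log (r / s)),
    ← integral_const_mul (Real.log (r / r₀)), ← integral_const_mul (Real.log (r / s))]
  refine mul_le_mul_of_nonneg_left (setIntegral_mono_on ((grn_int hs.le hu).const_mul _)
    ((grn_int r0.le hu).const_mul _) measurableSet_ball fun z hz => ?_) (by positivity)
  have hz' := mem_ball_zero_iff.1 hz
  rw [← mul_assoc, ← mul_assoc]
  refine mul_le_mul_of_nonneg_right ?_ (h z hz')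
  rcases le_total ‖z‖ r₀ with k | k
  · rw [max_eq_right k, mul_comm]
    exact mul_le_mul_of_nonneg_right (Real.log_le_log (div_pos hr (hs.trans_le (le_max_right _ _)))
      (div_le_div_of_nonneg_left hr.le hs (le_max_right _ _))) a0
  · have := grn_w_nonneg h1 hz'.le
    rw [max_eq_left k] at this ⊢
    rw [max_eq_left (h0.trans k)]
    exact mul_le_mul_of_nonneg_right ab this

theorem avg_nonpos {p : ℂ → ℝ} {s : ℝ} (hs : 0 ≤ s) (h : ∀ z, ‖z‖ = s → p z ≤ 0) :
    Real.circleAverage p 0 s ≤ 0 := by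
  rw [Real.circleAverage, smul_eq_mul]
  refine mul_nonpos_of_nonneg_of_nonpos (by positivity) ?_
  rw [intervalIntegral.integral_of_le Real.two_pi_pos.le]
  exact integral_nonpos fun θ => h _ (by rw [norm_circleMap_zero, abs_of_nonneg hs])

theorem grn_harnack {p : ℂ → ℝ} {r₀ r c : ℝ} (h0 : 0 < r₀) (h1 : r₀ ≤ r) (h2 : r ≤ 1) (hc : 0 ≤ c)
    (hp : ∀ z ∈ closedBall (0 : ℂ) r, ContDiffAt ℝ 2 p z) (neg : ∀ z, ‖z‖ ≤ r → p z ≤ 0)
    (hl : ∀ z, ‖z‖ < r → -(4 * c) ≤ lap p z) :
    grn (fun z => -p z) r₀ r ≤ -Real.circleAverage p 0 r₀ + c := by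
  have hr : 0 < r := h0.trans_le h1
  have cp : ContinuousOn p (closedBall 0 r) := fun z hz =>
    (hp z hz).continuousAt.continuousWithinAt
  have cl : ContinuousOn (lap p) (closedBall 0 r) := fun z hz =>
    (lap_cont (hp z hz)).continuousWithinAt
  have gr : ∀ a b, 0 ≤ a → a ≤ b → b ≤ r → grn (fun z => lap p z + 4 * c) a b =
      Real.circleAverage p 0 b - Real.circleAverage p 0 a + c * (b ^ 2 - a ^ 2) :=
    fun a b ha hab hb => by
      rw [grn_add ha (cl.mono (closedBall_subset_closedBall hb)) continuousOn_const,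
        grn_const ha hab, green ha hab fun z hz => hp z (closedBall_subset_closedBall hb hz)]
      ring
  have Y0 := avg_nonpos h0.le fun z hz => neg z (hz.trans_le h1)
  have Yr := avg_nonpos hr.le fun z hz => neg z hz.le
  obtain ⟨i1, e1⟩ := grn_polar h0.le hr cp.neg
  have e2 : ∀ s, Real.circleAverage (-p) 0 s = -Real.circleAverage p 0 s := fun s => by
    rw [← neg_one_smul ℝ p, Real.circleAverage_smul, neg_one_smul]
  refine e1.trans_le ((setIntegral_mono_on i1 (g := fun _ => -Real.circleAverage p 0 r₀ + c)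
    (integrableOn_const (by simp)) measurableSet_Ioo fun s hs => ?_).trans ?_)
  · have b0 : 0 ≤ Real.log (r / s) := Real.log_nonneg ((one_le_div hs.1).2 hs.2.le)
    have b1 : Real.log (r / s) * s ≤ 1 := by
      have := mul_le_mul_of_nonneg_right (Real.log_le_sub_one_of_pos (div_pos hr hs.1)) hs.1.le
      rw [sub_mul, div_mul_cancel₀ _ hs.1.ne'] at this
      linarith [hs.1]
    have key : Real.log (r / max s r₀) * -Real.circleAverage p 0 s ≤
        Real.log (r / s) * (-Real.circleAverage p 0 r₀ + c) := by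
      have s1 : c * s ^ 2 ≤ c := mul_le_of_le_one_right hc (by nlinarith [hs.1, hs.2])
      have r1 : c * r ^ 2 ≤ c := mul_le_of_le_one_right hc (by nlinarith)
      have r2 : 0 ≤ c * r₀ ^ 2 := by positivity
      rcases le_total s r₀ with k | k
      · have a0 : 0 ≤ Real.log (r / r₀) := Real.log_nonneg ((one_le_div h0).2 h1)
        have ab : Real.log (r / r₀) ≤ Real.log (r / s) :=
          Real.log_le_log (div_pos hr h0) (div_le_div_of_nonneg_left hr.le hs.1 k)
        have := grn_conv hs.1 k h1 (cl.add (continuousOn_const (c := 4 * c))) fun z hz => by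
          have := hl z hz
          simp only [Pi.add_apply]
          linarith
        rw [show lap p + (fun _ => 4 * c) = fun z => lap p z + 4 * c from rfl,
          gr _ _ hs.1.le hs.2.le le_rfl, gr _ _ h0.le h1 le_rfl] at this
        rw [max_eq_right k]
        nlinarith [mul_nonneg (sub_nonneg.2 ab) (show 0 ≤ c - (Real.circleAverage p 0 r +
          c * r ^ 2) by linarith), mul_nonneg a0 (sub_nonneg.2 s1), mul_nonneg b0 r2]
      · have := grn_nonneg (u := fun z => lap p z + 4 * c) k fun z hz => by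
          linarith [hl z (hz.trans hs.2)]
        rw [gr _ _ h0.le k hs.2.le] at this
        rw [max_eq_left k]
        exact mul_le_mul_of_nonneg_left (by linarith) b0
    rw [e2]
    nlinarith [mul_le_mul_of_nonneg_left key hs.1.le, mul_le_mul_of_nonneg_right b1
      (show 0 ≤ -Real.circleAverage p 0 r₀ + c by linarith)]
  · rw [setIntegral_const, Real.volume_real_Ioo_of_le hr.le, smul_eq_mul, sub_zero]
    exact mul_le_of_le_one_left (by linarith) h2

theorem exp_lo0 {m s : ℂ → ℝ} {r₀ L₀ C : ℝ} (h0 : 0 ≤ r₀) (h1 : r₀ ≤ 1) (hC : 0 ≤ C)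
    (hL : 0 ≤ L₀) (hm : ∀ z ∈ closedBall (0 : ℂ) r₀, ContDiffAt ℝ 2 m z)
    (s1 : ∀ z, ‖z‖ < r₀ → s z ≤ L₀) (hl : ∀ z, ‖z‖ < r₀ → |lap m z| ≤ 4 * C * s z) :
    m 0 - C * L₀ ≤ Real.circleAverage m 0 r₀ := by
  have h := green le_rfl h0 hm
  have h2 := le_grn (c := -(4 * C * L₀)) le_rfl h0
    (fun z hz => (lap_cont (hm z hz)).continuousWithinAt) fun z hz => by
      have := mul_le_mul_of_nonneg_left (s1 z hz) (show 0 ≤ 4 * C by positivity)
      linarith [(abs_le.1 (hl z hz)).1]
  rw [Real.circleAverage_zero] at h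
  have : C * L₀ * r₀ ^ 2 ≤ C * L₀ := mul_le_of_le_one_right (by positivity) (by nlinarith)
  linarith

theorem exp_lo {p m s : ℂ → ℝ} {r₀ r L L₀ C B ε β : ℝ} (h0 : 0 < r₀) (h1 : r₀ ≤ r) (h2 : r ≤ 1)
    (hC : 0 ≤ C) (hB : 0 ≤ B) (hε : 0 ≤ ε) (hβ : 0 ≤ β) (hL : 0 ≤ L) (hL₀ : 0 ≤ L₀)
    (hp : ∀ z ∈ closedBall (0 : ℂ) r, ContDiffAt ℝ 2 p z)
    (hm : ∀ z ∈ closedBall (0 : ℂ) r, ContDiffAt ℝ 2 m z) (hs : ContinuousOn s (closedBall 0 r))
    (neg : ∀ z, ‖z‖ ≤ r → p z ≤ 0) (s2 : ∀ z, ‖z‖ < r → s z ≤ L)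
    (s1 : ∀ z, ‖z‖ < r₀ → s z ≤ L₀)
    (cur : ∀ z, ‖z‖ < r → 4 * ((ε + β * p z) * s z) ≤ lap m z + lap p z)
    (qps : ∀ z, ‖z‖ < r → 4 * (-B * s z) ≤ lap m z + lap p z)
    (hl : ∀ z, ‖z‖ < r → |lap m z| ≤ 4 * C * s z) (b1 : 4 * β * L ≤ 1)
    (b2 : 4 * β * L * ((B + C) * L) ≤ 1) :
    ε * grn (fun z => 4 * s z) 0 r - ε * L₀ - 1 + m 0 - Real.circleAverage m 0 r - C * L₀ ≤
      2 * -Real.circleAverage p 0 r₀ := by
  have sb := closedBall_subset_closedBall (x := (0 : ℂ)) h1
  have cp : ContinuousOn p (closedBall 0 r) := fun z hz =>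
    (hp z hz).continuousAt.continuousWithinAt
  have lp : ContinuousOn (lap p) (closedBall 0 r) := fun z hz =>
    (lap_cont (hp z hz)).continuousWithinAt
  have lm : ContinuousOn (lap m) (closedBall 0 r) := fun z hz =>
    (lap_cont (hm z hz)).continuousWithinAt
  have c4 : ContinuousOn (fun z => 4 * s z) (closedBall 0 r) := continuousOn_const.mul hs
  have e0 := exp_lo0 h0.le (h1.trans h2) hC hL₀ (fun z hz => hm z (sb hz)) s1
    fun z hz => hl z (hz.trans_le h1)
  have e1 := grn_harnack h0 h1 h2 (c := (B + C) * L) (by positivity) hp neg fun z hz => by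
    have := mul_le_mul_of_nonneg_left (s2 z hz) (add_nonneg hB hC)
    linarith [qps z hz, (abs_le.1 (hl z hz)).2]
  have e2 := grn_mono (u := fun z => ε * (4 * s z) - 4 * β * L * -p z)
    (v := fun z => lap m z + lap p z) h0.le h1
    ((continuousOn_const.mul c4).sub (continuousOn_const.mul cp.neg)) (lm.add lp) fun z hz => by
      have := mul_le_mul_of_nonneg_left (s2 z hz)
        (mul_nonneg hβ (neg_nonneg.2 (neg z hz.le)))
      linarith [cur z hz]
  rw [grn_sub (u := fun z => ε * (4 * s z)) (v := fun z => 4 * β * L * -p z) h0.le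
    (continuousOn_const.mul c4) (continuousOn_const.mul cp.neg), grn_mul ε, grn_mul (4 * β * L),
    grn_add h0.le lm lp, ← green h0.le h1 hm, ← green h0.le h1 hp] at e2
  have e3 := grn_split le_rfl h0.le h1 c4
  have e4 := grn_le (c := 4 * L₀) le_rfl h0.le (c4.mono sb) fun z hz => by linarith [s1 z hz]
  have e5 : L₀ * r₀ ^ 2 ≤ L₀ := mul_le_of_le_one_right hL₀ (by nlinarith)
  have e6 := mul_le_mul_of_nonneg_left e1 (show 0 ≤ 4 * β * L by positivity)
  have Y0 := avg_nonpos h0.le fun z hz => neg z (hz.trans_le h1)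
  have Yr := avg_nonpos (h0.le.trans h1) fun z hz => neg z hz.le
  have e7 := mul_le_mul_of_nonneg_right b1 (neg_nonneg.2 Y0)
  have e8 := mul_le_mul_of_nonneg_left
    (show grn (fun z => 4 * s z) 0 r₀ ≤ L₀ by linarith) hε
  rw [e3]
  linarith

end Vale.Agent.P272
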