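import Vale.Agent.P272.F.G.TDr
import Vale.Agent.P272.F.G.Har
import Vale.Agent.P272.F.Kit.Main

/-! P272 F/G/JB (helper22): the volume of a holomorphic family of frames. -/

open Metric Set Filter Topology Complex MeasureTheory
open scoped ContDiff

noncomputable section

namespace Vale.Agent.P272

variable {n : ℕ} {X : Type} [TopologicalSpace X] {A : Atl n X}

theorem dL_add {V : Type} [NormedAddCommGroup V] [NormedSpace ℝ V] {f g : V → ℝ} {q : V}
    (h : ContDiffAt ℝ (2 : ℕ) f q) (h' : ContDiffAt ℝ (2 : ℕ) g q) (v w : V) :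
    dL v w (fun p => f p + g p) q = dL v w f q + dL v w g q := by
  have e : ∀ a, dD a (dD a fun p => f p + g p) q = dD a (dD a f) q + dD a (dD a g) q := fun a =>
    ((dD_congr (dD_add (h.of_le (by norm_cast)) (h'.of_le (by norm_cast)) a) a).trans
      (dD_add (dD_smooth (m := 1) h a) (dD_smooth (m := 1) h' a) a)).self_of_nhds
  rw [(dL_eq (h.add h') v w).self_of_nhds, (dL_eq h v w).self_of_nhds,
    (dL_eq h' v w).self_of_nhds]
  simp only [e]
  ring

variable {B : Type} [NormedAddCommGroup B] [NormedSpace ℂ B] {G : B → X} {H : B × E n → X}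
  {q : B} {j k : Fin A.N}

theorem dL_re {f : B → ℂ} (hf : AnalyticAt ℂ f q) (c : ℝ) (a : B) :
    dL a (I • a) (fun z => (f z).re + c) q = 0 := by
  have e : (fderiv ℝ fun z => (f z).re + c) =ᶠ[𝓝 q] fun z =>
      Complex.reCLM.comp ((fderiv ℂ f z).restrictScalars ℝ) := by
    filter_upwards [hf.eventually_analyticAt] with z h1
    exact ((Complex.reCLM.hasFDerivAt.comp z
      (h1.differentiableAt.hasFDerivAt.restrictScalars ℝ)).add_const c).fderiv
  have h2 := (ContinuousLinearMap.restrictScalarsL ℂ B ℂ ℝ ℝ).hasFDerivAt.comp q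
    (hf.fderiv.differentiableAt.hasFDerivAt.restrictScalars ℝ)
  have h3 := (ContinuousLinearMap.compL ℝ B ℂ ℝ Complex.reCLM).hasFDerivAt.comp q h2
  have key : ∀ a, fderiv ℝ (fderiv ℝ fun z => (f z).re + c) q a a =
      (fderiv ℂ (fderiv ℂ f) q a a).re := fun a => by
    rw [e.fderiv_eq]
    exact congrArg (fun D : B →L[ℝ] B →L[ℝ] ℝ => D a a) h3.fderiv
  rw [dL, key, key, (fderiv ℂ (fderiv ℂ f) q).map_smul,
    (I • fderiv ℂ (fderiv ℂ f) q a).map_smul, smul_apply, smul_smul, I_mul_I, neg_one_smul,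
    Complex.neg_re]
  ring

theorem dL_log {f : B → ℂ} (hf : AnalyticAt ℂ f q) (h0 : f q ≠ 0) (a : B) :
    dL a (I • a) (fun z => Real.log (‖f z‖ ^ 2)) q = 0 := by
  have hs : f q / f q ∈ slitPlane := by
    rw [div_self h0]
    exact one_mem_slitPlane
  have hl : AnalyticAt ℂ (fun z => 2 * Complex.log (f z / f q)) q :=
    analyticAt_const.mul (hf.div_const.clog hs)
  rw [← dL_re hl (Real.log (‖f q‖ ^ 2)) a]
  refine dL_congr ?_ _ _
  filter_upwards [hf.continuousAt.eventually_ne h0] with z hz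
  rw [two_mul, add_re, Complex.log_re, norm_div,
    Real.log_div (norm_ne_zero_iff.2 hz) (norm_ne_zero_iff.2 h0), Real.log_pow, Real.log_pow]
  push_cast
  ring

/-- The frame of a family. -/
def Atl.fB (A : Atl n X) (j : Fin A.N) (H : B × E n → X) (q : B) : L n :=
  fderiv ℂ (fun w => A.e j (H (q, w))) 0

/-- The logarithm of the volume of the frame. -/
def Atl.LV.jB (v : A.LV) (H : B × E n → X) (q : B) : ℝ :=
  v.l (A.ch (H (q, 0))) (A.e (A.ch (H (q, 0))) (H (q, 0))) +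
    Real.log (‖(A.fB (A.ch (H (q, 0))) H q).det‖ ^ 2)

theorem Atl.fB_eq (h : A.HolAt H (q, 0)) (hj : H (q, 0) ∈ (A.e j).source) : A.fB j H q =
    (fderiv ℂ (A.e j ∘ H) (q, 0)).comp (ContinuousLinearMap.inr ℂ B (E n)) :=
  (HasFDerivAt.comp (g := A.e j ∘ H) (0 : E n) (h.2 j hj).hasFDerivAt
    (hasFDerivAt_prodMk_right q 0)).fderiv

theorem Atl.fB_chg (h : A.HolAt H (q, 0)) (hj : H (q, 0) ∈ (A.e j).source)
    (hk : H (q, 0) ∈ (A.e k).source) : A.fB j H q = A.tr j k (H (q, 0)) * A.fB k H q := by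
  rw [Atl.fB_eq h hj, Atl.fB_eq h hk, basa1_chg h hj hk]
  rfl

theorem Atl.LV.jB_eq (v : A.LV) (h : A.HolAt H (q, 0)) (hj : H (q, 0) ∈ (A.e j).source)
    (hd : (A.fB j H q).det ≠ 0) :
    v.jB H q = v.l j (A.e j (H (q, 0))) + Real.log (‖(A.fB j H q).det‖ ^ 2) := by
  have hc := (Atl.ch_in (A := A) (H (q, 0))).1
  rw [Atl.fB_chg h hj hc, det_mul'] at hd ⊢
  rw [Atl.LV.jB, v.cmp j _ _ hj hc, norm_mul, mul_pow,
    Real.log_mul (pow_ne_zero 2 (norm_ne_zero_iff.2 (left_ne_zero_of_mul hd)))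
      (pow_ne_zero 2 (norm_ne_zero_iff.2 (right_ne_zero_of_mul hd))), add_assoc]

variable [FiniteDimensional ℂ B]

omit [FiniteDimensional ℂ B] in
theorem Atl.Hol.cB (h : A.Hol H (q, 0)) : A.Hol (fun p => H (p, 0)) q :=
  Atl.Hol.comp (φ := fun w : B => ((w, 0) : B × E n)) h
    (Eventually.of_forall fun _ => differentiableAt_id.prodMk (differentiableAt_const _))

theorem Atl.fB_an (h : A.Hol H (q, 0)) (hj : H (q, 0) ∈ (A.e j).source) :
    AnalyticAt ℂ (fun p => (A.fB j H p).det) q := by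
  have h1 : AnalyticAt ℂ (fun p : B => fderiv ℂ (A.e j ∘ H) (p, 0)) q :=
    AnalyticAt.comp (g := fderiv ℂ (A.e j ∘ H)) (h.analyticAt hj).fderiv
      (analyticAt_id.prod analyticAt_const)
  have h2 := ((ContinuousLinearMap.compL ℂ (E n) (B × E n) (E n)).flip
    (ContinuousLinearMap.inr ℂ B (E n))).analyticAt _ |>.comp h1
  refine (analyticAt_det _).comp (h2.congr ?_)
  filter_upwards [(Continuous.prodMk_left (0 : E n)).continuousAt.eventually h,
    h.cB.holAt.1.eventually ((A.e j).open_source.mem_nhds hj)] with p b1 b2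
  exact (Atl.fB_eq b1 b2).symm

theorem Atl.LV.jB_loc (v : A.LV) (h : A.Hol H (q, 0)) (hj : H (q, 0) ∈ (A.e j).source)
    (hd : (A.fB j H q).det ≠ 0) : v.jB H =ᶠ[𝓝 q] fun p =>
      (v.toPot.u j ∘ (A.e j ∘ fun p => H (p, 0))) p + Real.log (‖(A.fB j H p).det‖ ^ 2) := by
  filter_upwards [(Continuous.prodMk_left (0 : E n)).continuousAt.eventually h,
    h.cB.holAt.1.eventually ((A.e j).open_source.mem_nhds hj),
    (Atl.fB_an h hj).continuousAt.eventually_ne hd] with p b1 b2 b3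
  exact v.jB_eq b1 b2 b3

theorem jB_log (h : A.Hol H (q, 0)) (hj : H (q, 0) ∈ (A.e j).source)
    (hd : (A.fB j H q).det ≠ 0) (m : ℕ) :
    ContDiffAt ℝ m (fun p => Real.log (‖(A.fB j H p).det‖ ^ 2)) q :=
  ((((Atl.fB_an h hj).contDiffAt (n := m)).restrict_scalars ℝ).norm_sq ℂ).log
    (pow_ne_zero 2 (norm_ne_zero_iff.2 hd))

theorem Atl.LV.jB_smooth (v : A.LV) (h : A.Hol H (q, 0)) (hj : H (q, 0) ∈ (A.e j).source)
    (hd : (A.fB j H q).det ≠ 0) (m : ℕ) : ContDiffAt ℝ m (v.jB H) q :=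
  ((v.toPot.pb_sm h.cB hj m).add (jB_log h hj hd m)).congr_of_eventuallyEq (v.jB_loc h hj hd)

theorem Atl.LV.jB_dL (v : A.LV) (h : A.Hol H (q, 0)) (hj : H (q, 0) ∈ (A.e j).source)
    (hd : (A.fB j H q).det ≠ 0) (a : B) :
    dL a (I • a) (v.jB H) q = 4 * v.toPot.pb (fun p => H (p, 0)) q a := by
  rw [dL_congr (v.jB_loc h hj hd), dL_add (v.toPot.pb_sm h.cB hj 2) (jB_log h hj hd 2),
    dL_log (Atl.fB_an h hj) hd, add_zero, ← (v.toPot.pb_loc h.cB hj a).self_of_nhds]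

theorem Atl.Sm.hol_loc (φ : X → ℝ) (h : A.Hol G q) (hj : G q ∈ (A.e j).source) :
    (fun p => φ (G p)) =ᶠ[𝓝 q] A.loc φ j ∘ (A.e j ∘ G) :=
  (h.holAt.1.eventually ((A.e j).open_source.mem_nhds hj)).mono fun _ hp => (pv_loc φ hp).symm

theorem Atl.Sm.hol_smooth {φ : X → ℝ} (hφ : A.Sm φ) (h : A.Hol G q) (m : ℕ) :
    ContDiffAt ℝ m (fun p => φ (G p)) q :=
  (ContDiffAt.comp q ((pv_at hφ (Atl.ch_in _).1).of_le (by exact_mod_cast le_top))
    (((h.analyticAt (Atl.ch_in _).1).contDiffAt (n := m)).restrict_scalars ℝ)).congr_of_eventuallyEq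
      (Atl.Sm.hol_loc φ h (Atl.ch_in _).1)

theorem Atl.Pot.pb_addSm (θ : A.Pot) {φ : X → ℝ} (hφ : A.Sm φ) (h : A.Hol G q) (a : B) :
    4 * (θ.addSm hφ).pb G q a = 4 * θ.pb G q a + dL a (I • a) (fun p => φ (G p)) q := by
  have hc := (Atl.ch_in (A := A) (G q)).1
  rw [dL_congr (Atl.Sm.hol_loc φ h hc), dL_hol (h.analyticAt hc) (hφ.at2 hc), ← mul_add]
  exact congrArg _ (pv_levi_add (θ.at2 hc) (hφ.at2 hc) _)

end Vale.Agent.P272
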