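import Vale.Agent.P272.F.G.Green1

/-! P272 F/G/Par (helper22): differentiation under the integral sign, local version. -/

open Metric Set Filter Topology Complex MeasureTheory

noncomputable section

namespace Vale.Agent.P272

section

variable {W P : Type} [NormedAddCommGroup W] [NormedSpace ℝ W] [NormedAddCommGroup P]
  [NormedSpace ℝ P] {K S : Set W} {k : W → ℝ} {p : P}
  {F : Type} [NormedAddCommGroup F] [NormedSpace ℝ F] {G : W × P → F}

/-- The derivative in the second variable. -/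
def pD (G : W × P → F) (q : W × P) : P →L[ℝ] F :=
  (fderiv ℝ G q).comp (ContinuousLinearMap.inr ℝ W P)

theorem pD_has {w : W} (h : ContDiffAt ℝ 1 G (w, p)) :
    HasFDerivAt (fun p => G (w, p)) (pD G (w, p)) p :=
  (h.differentiableAt one_ne_zero).hasFDerivAt.comp p (hasFDerivAt_prodMk_right w p)

theorem pD_smooth {q : W × P} {m : ℕ} (h : ContDiffAt ℝ (m + 1 : ℕ) G q) :
    ContDiffAt ℝ m (pD G) q :=
  (h.fderiv_right (m := m) (by norm_cast)).clm_comp contDiffAt_const

theorem pD_two {w : W} (h : ContDiffAt ℝ (2 : ℕ) G (w, p)) :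
    fderiv ℝ (fderiv ℝ fun p => G (w, p)) p = pD (pD G) (w, p) := by
  have h1 : (fderiv ℝ fun p => G (w, p)) =ᶠ[𝓝 p] fun p => pD G (w, p) :=
    (((Continuous.prodMk_right w).tendsto p).eventually (h.eventually (by simp))).mono
      fun q hq => (pD_has (hq.of_le (by norm_cast))).fderiv
  rw [h1.fderiv_eq, (pD_has (pD_smooth (m := 1) h)).fderiv]

theorem par_ev {m : ℕ} (hK : IsCompact K) (hG : ∀ w ∈ K, ContDiffAt ℝ m G (w, p)) :
    ∀ᶠ q in 𝓝 p, ∀ w ∈ K, ContDiffAt ℝ m G (w, q) :=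
  hK.eventually_forall_of_forall_eventually fun w hw =>
    (continuous_swap.tendsto (p, w)).eventually ((hG w hw).eventually (by simp))

variable [MeasurableSpace W] [OpensMeasurableSpace W] [SecondCountableTopology W]
  {μ : Measure W}

omit [NormedSpace ℝ W] [NormedSpace ℝ P] in
theorem par_ion (hK : IsCompact K) (hS : S ⊆ K) (hk : IntegrableOn k K μ)
    (hG : ∀ w ∈ K, ContinuousAt G (w, p)) : IntegrableOn (fun w => k w • G (w, p)) S μ :=
  (hk.smul_continuousOn (fun w hw => ((hG w hw).comp (f := fun w => (w, p))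
    (Continuous.prodMk_left p).continuousAt).continuousWithinAt) hK).mono_set hS

variable [ProperSpace P]

theorem par_has (hK : IsCompact K) (hS : S ⊆ K) (hm : MeasurableSet S) (hk : IntegrableOn k K μ)
    (hG : ∀ w ∈ K, ContDiffAt ℝ (1 : ℕ) G (w, p)) :
    HasFDerivAt (fun p => ∫ w in S, k w • G (w, p) ∂μ) (∫ w in S, k w • pD G (w, p) ∂μ) p := by
  have h1 := par_ev hK hG
  obtain ⟨ε, hε, hb⟩ := nhds_basis_closedBall.eventually_iff.1 h1
  obtain ⟨C, hC⟩ := (hK.prod (isCompact_closedBall p ε)).exists_bound_of_continuousOn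
    (f := pD G) fun q hq => (pD_smooth (m := 0) (hb hq.2 _ hq.1)).continuousAt.continuousWithinAt
  refine hasFDerivAt_integral_of_dominated_of_fderiv_le (F' := fun q w => k w • pD G (w, q))
    (bound := fun w => ‖k w‖ * C) (closedBall_mem_nhds p hε)
    (h1.mono fun q hq => (par_ion hK hS hk fun w hw => (hq w hw).continuousAt).1)
    (par_ion hK hS hk fun w hw => (hG w hw).continuousAt)
    (par_ion hK hS hk fun w hw => (pD_smooth (m := 0) (hG w hw)).continuousAt).1
    (ae_restrict_of_forall_mem hm fun w hw q hq => ?_) ((hk.mono_set hS).norm.mul_const C)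
    (ae_restrict_of_forall_mem hm fun w hw q hq => (pD_has (hb hq w (hS hw))).const_smul (k w))
  rw [norm_smul]
  exact mul_le_mul_of_nonneg_left (hC (w, q) ⟨hS hw, hq⟩) (norm_nonneg _)

theorem par_smooth (hK : IsCompact K) (hS : S ⊆ K) (hm : MeasurableSet S)
    (hk : IntegrableOn k K μ) (m : ℕ) : ∀ (F : Type) [NormedAddCommGroup F] [NormedSpace ℝ F]
      (G : W × P → F), (∀ w ∈ K, ContDiffAt ℝ (m + 1 : ℕ) G (w, p)) →
      ContDiffAt ℝ m (fun p => ∫ w in S, k w • G (w, p) ∂μ) p := by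
  induction m with
  | zero =>
    exact fun F _ _ G hG => contDiffAt_zero.2 ⟨_, par_ev hK hG, fun q hq =>
      (par_has hK hS hm hk hq).continuousAt.continuousWithinAt⟩
  | succ m ih =>
    exact fun F _ _ G hG => contDiffAt_succ_iff_hasFDerivAt.2
      ⟨fun p => ∫ w in S, k w • pD G (w, p) ∂μ, ⟨_, par_ev hK hG, fun q hq =>
        par_has hK hS hm hk fun w hw => (hq w hw).of_le (by norm_cast; omega)⟩,
        ih _ _ fun w hw => pD_smooth (hG w hw)⟩

theorem par_two {G : W × P → ℝ} (hK : IsCompact K) (hS : S ⊆ K) (hm : MeasurableSet S)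
    (hk : IntegrableOn k K μ) (hG : ∀ w ∈ K, ContDiffAt ℝ (2 : ℕ) G (w, p)) (a : P) :
    IntegrableOn (fun w => k w * fderiv ℝ (fderiv ℝ fun p => G (w, p)) p a a) S μ ∧
    fderiv ℝ (fderiv ℝ fun p => ∫ w in S, k w * G (w, p) ∂μ) p a a =
      ∫ w in S, k w * fderiv ℝ (fderiv ℝ fun p => G (w, p)) p a a ∂μ := by
  have h1 : (fderiv ℝ fun p => ∫ w in S, k w * G (w, p) ∂μ) =ᶠ[𝓝 p]
      fun p => ∫ w in S, k w • pD G (w, p) ∂μ := (par_ev hK hG).mono fun q hq =>
    (par_has hK hS hm hk fun w hw => (hq w hw).of_le (by norm_cast)).fderiv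
  have h2 := par_ion hK hS hk fun w hw =>
    (pD_smooth (m := 0) (pD_smooth (m := 1) (hG w hw))).continuousAt
  have h3 := h2.apply_continuousLinearMap a
  have h4 : EqOn (fun w => ((k w • pD (pD G) (w, p)) a) a)
      (fun w => k w * fderiv ℝ (fderiv ℝ fun p => G (w, p)) p a a) S := fun w hw => by
    simp only [pD_two (hG w (hS hw))]
    rfl
  refine ⟨IntegrableOn.congr_fun (h3.apply_continuousLinearMap a) h4 hm, ?_⟩
  rw [h1.fderiv_eq, (par_has hK hS hm hk fun w hw => pD_smooth (m := 1) (hG w hw)).fderiv,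
    ContinuousLinearMap.integral_apply h2, ContinuousLinearMap.integral_apply h3]
  exact setIntegral_congr_fun hm h4

theorem par_levi {n : ℕ} {G : W × E n → ℝ} {u : E n} (hK : IsCompact K) (hS : S ⊆ K)
    (hm : MeasurableSet S) (hk : IntegrableOn k K μ) (hG : ∀ w ∈ K, ContDiffAt ℝ 3 G (w, u))
    (c : ℝ) : ContDiffAt ℝ 2 (fun u => c * ∫ w in S, k w * G (w, u) ∂μ) u ∧
      ∀ a, levi (fun u => c * ∫ w in S, k w * G (w, u) ∂μ) u a =
        c * ∫ w in S, k w * levi (fun u => G (w, u)) u a ∂μ := by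
  refine ⟨contDiffAt_const.mul (par_smooth hK hS hm hk 2 ℝ G hG), fun a => ?_⟩
  have h : ∀ w ∈ K, ContDiffAt ℝ (2 : ℕ) G (w, u) := fun w hw => (hG w hw).of_le (by norm_cast)
  obtain ⟨h1, h2⟩ := par_two hK hS hm hk h a
  obtain ⟨h3, h4⟩ := par_two hK hS hm hk h (I • a)
  have e : (fderiv ℝ (fderiv ℝ fun u => c * ∫ w in S, k w * G (w, u) ∂μ)) =
      c • fderiv ℝ (fderiv ℝ fun u => ∫ w in S, k w * G (w, u) ∂μ) := by
    rw [← fderiv_const_smul_field, ← fderiv_const_smul_field]
    rfl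
  simp only [levi, ← mul_div_assoc, mul_add]
  rw [e, integral_div, integral_add h1 h3, ← h2, ← h4, ← mul_div_assoc, mul_add]
  rfl

end

variable {n : ℕ} {S : ℂ × E n → ℝ} {u : E n}

theorem par_grn {r₀ r : ℝ} (h0 : 0 ≤ r₀) (hS : ∀ z, ‖z‖ ≤ r → ContDiffAt ℝ 3 S (z, u)) :
    ContDiffAt ℝ 2 (fun u => grn (fun z => S (z, u)) r₀ r) u ∧
      ∀ a, levi (fun u => grn (fun z => S (z, u)) r₀ r) u a =
        grn (fun z => levi (fun u => S (z, u)) u a) r₀ r :=
  par_levi (isCompact_closedBall 0 r) ball_subset_closedBall measurableSet_ball (grn_w h0 r)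
    (fun z hz => hS z (mem_closedBall_zero_iff.1 hz)) _

theorem par_avg {r : ℝ} (hr : 0 ≤ r) (hS : ∀ z, ‖z‖ = r → ContDiffAt ℝ 3 S (z, u)) :
    ContDiffAt ℝ 2 (fun u => Real.circleAverage (fun z => S (z, u)) 0 r) u ∧
      ∀ a, levi (fun u => Real.circleAverage (fun z => S (z, u)) 0 r) u a =
        Real.circleAverage (fun z => levi (fun u => S (z, u)) u a) 0 r := by
  have h := par_levi (μ := volume) (k := fun _ => 1) (u := u)
    (G := fun q : ℝ × E n => S (circleMap 0 r q.1, q.2))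
    (isCompact_Icc (a := (0 : ℝ)) (b := 2 * Real.pi)) Ioc_subset_Icc_self measurableSet_Ioc
    continuous_const.integrableOn_Icc (fun θ _ => ContDiffAt.comp (g := S) (θ, u)
      (hS _ (by rw [norm_circleMap_zero, abs_of_nonneg hr]))
      ((((contDiff_circleMap 0 r).comp contDiff_fst).prodMk contDiff_snd).contDiffAt))
    (2 * Real.pi)⁻¹
  simpa only [Real.circleAverage, intervalIntegral.integral_of_le Real.two_pi_pos.le, smul_eq_mul,
    one_mul] using h

end Vale.Agent.P272
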