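import Vale.Agent.P272.F.G.TDr0
import Vale.Agent.P272.BasA1
import Vale.Agent.P272.F.P.Lv

/-! P272 F/G/TDr (helper22): the drift of the characteristic function. -/

open Metric Set Filter Topology Complex MeasureTheory
open scoped ContDiff

noncomputable section

namespace Vale.Agent.P272

variable {n : ℕ} {X : Type} [TopologicalSpace X] {A : Atl n X}

section

variable {B : Type} [NormedAddCommGroup B] [NormedSpace ℂ B] {G : B → X} {q : B}

/-- The pull-back of the form `ρ`. -/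
def Atl.Pot.pb (ρ : A.Pot) (G : B → X) (q a : B) : ℝ :=
  levi (ρ.u (A.ch (G q))) (A.e (A.ch (G q)) (G q)) (fderiv ℂ (A.e (A.ch (G q)) ∘ G) q a)

theorem Atl.Pot.pb_eq (ρ : A.Pot) (h : A.HolAt G q) {j : Fin A.N} (hj : G q ∈ (A.e j).source)
    (a : B) : ρ.pb G q a = levi (ρ.u j) (A.e j (G q)) (fderiv ℂ (A.e j ∘ G) q a) := by
  rw [Atl.Pot.pb, ρ.cmp j _ _ hj (Atl.ch_in _).1, basa1_chg h hj (Atl.ch_in _).1]
  rfl

variable [FiniteDimensional ℂ B]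

theorem Atl.Pot.pb_sm (ρ : A.Pot) (h : A.Hol G q) {j : Fin A.N} (hj : G q ∈ (A.e j).source)
    (m : ℕ) : ContDiffAt ℝ m (ρ.u j ∘ (A.e j ∘ G)) q :=
  ContDiffAt.comp q ((pv_pot_at ρ hj).of_le (by exact_mod_cast le_top))
    (((h.analyticAt hj).contDiffAt (n := m)).restrict_scalars ℝ)

theorem Atl.Pot.pb_loc (ρ : A.Pot) (h : A.Hol G q) {j : Fin A.N} (hj : G q ∈ (A.e j).source)
    (a : B) : (fun p => 4 * ρ.pb G p a) =ᶠ[𝓝 q] dL a (I • a) (ρ.u j ∘ (A.e j ∘ G)) := by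
  filter_upwards [h.eventually_nhds,
    h.holAt.1.eventually ((A.e j).open_source.mem_nhds hj)] with p h1 h2
  rw [ρ.pb_eq h1.self_of_nhds h2, dL_hol (Atl.Hol.analyticAt h1 h2)
    ((pv_pot_at ρ h2).of_le (by norm_cast))]
  rfl

theorem Atl.Pot.pb_smooth (ρ : A.Pot) (h : A.Hol G q) (a : B) (m : ℕ) :
    ContDiffAt ℝ m (fun p => 4 * ρ.pb G p a) q :=
  (dL_smooth (ρ.pb_sm h (Atl.ch_in _).1 (m + 2)) _ _).congr_of_eventuallyEq
    (ρ.pb_loc h (Atl.ch_in _).1 a)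

theorem Atl.Pot.pb_comm (ρ : A.Pot) (h : A.Hol G q) (a b : B) :
    dL a (I • a) (fun p => 4 * ρ.pb G p b) q = dL b (I • b) (fun p => 4 * ρ.pb G p a) q := by
  rw [dL_congr (ρ.pb_loc h (Atl.ch_in _).1 a), dL_congr (ρ.pb_loc h (Atl.ch_in _).1 b),
    dL_comm (ρ.pb_sm h (Atl.ch_in _).1 4)]

end

variable {G : ℂ × E n → X} {z : ℂ} {u : E n} {r : ℝ}

/-- The form `ρ` on the variation of the disc. -/
def Atl.Pot.lv (ρ : A.Pot) (G : ℂ × E n → X) (z : ℂ) (u a : E n) : ℝ :=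
  levi (ρ.u (A.ch (G (z, u)))) (A.e (A.ch (G (z, u))) (G (z, u)))
    (fderiv ℂ (fun u' => A.e (A.ch (G (z, u))) (G (z, u'))) u a)

theorem tdr_u (h : A.HolAt G (z, u)) {j : Fin A.N} (hj : G (z, u) ∈ (A.e j).source) (a : E n) :
    fderiv ℂ (fun u' => A.e j (G (z, u'))) u a = fderiv ℂ (A.e j ∘ G) (z, u) (0, a) :=
  congrArg (fun D : E n →L[ℂ] E n => D a) (HasFDerivAt.comp (g := A.e j ∘ G) u
    (h.2 j hj).hasFDerivAt (hasFDerivAt_prodMk_right z u)).fderiv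

theorem tdr_z (h : A.HolAt G (z, u)) {j : Fin A.N} (hj : G (z, u) ∈ (A.e j).source) :
    A.dv j (fun z => G (z, u)) z = fderiv ℂ (A.e j ∘ G) (z, u) (1, 0) :=
  (HasFDerivAt.comp_hasDerivAt (l := A.e j ∘ G) (f := fun z => (z, u)) z
    (h.2 j hj).hasFDerivAt ((hasDerivAt_id z).prodMk (hasDerivAt_const z u))).deriv

theorem Atl.Pot.lv_pb (ρ : A.Pot) (h : A.HolAt G (z, u)) (a : E n) :
    ρ.lv G z u a = ρ.pb G (z, u) (0, a) := by
  rw [Atl.Pot.lv, tdr_u h (Atl.ch_in _).1, Atl.Pot.pb]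

theorem Atl.Pot.lv_eq (ρ : A.Pot) (h : A.HolAt G (z, u)) {j : Fin A.N}
    (hj : G (z, u) ∈ (A.e j).source) (a : E n) : ρ.lv G z u a =
      levi (ρ.u j) (A.e j (G (z, u))) (fderiv ℂ (fun u' => A.e j (G (z, u'))) u a) := by
  rw [ρ.lv_pb h, ρ.pb_eq h hj, tdr_u h hj]

theorem Atl.Pot.sp_pb (ρ : A.Pot) (h : A.HolAt G (z, u)) :
    ρ.sp (fun z => G (z, u)) z = ρ.pb G (z, u) (1, 0) := by
  rw [Atl.Pot.sp, tdr_z h (Atl.ch_in _).1, Atl.Pot.pb]

theorem Atl.Pot.lv_cont (ρ : A.Pot) (h : A.Hol G (z, u)) (a : E n) :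
    ContinuousAt (fun p : ℂ × E n => ρ.lv G p.1 p.2 a) (z, u) := by
  refine ((ρ.pb_smooth h (0, a) 0).continuousAt.div_const 4).congr (h.mono fun p hp => ?_)
  simp only [ρ.lv_pb (z := p.1) (u := p.2) hp]
  ring

theorem T_drift (ρ : A.Pot) (hr : 0 ≤ r) (hG : ∀ z, ‖z‖ ≤ r → A.Hol G (z, u)) :
    ContDiffAt ℝ 2 (fun u => ρ.T (fun z => G (z, u)) r) u ∧
      ∀ a, levi (fun u => ρ.T (fun z => G (z, u)) r) u a =
        Real.circleAverage (fun z => ρ.lv G z u a) 0 r - ρ.lv G 0 u a := by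
  have h1 : ∀ᶠ u' in 𝓝 u, ∀ z ∈ closedBall (0 : ℂ) r, A.HolAt G (z, u') :=
    (isCompact_closedBall 0 r).eventually_forall_of_forall_eventually fun z hz =>
      (continuous_swap.tendsto (u, z)).eventually (hG z (mem_closedBall_zero_iff.1 hz))
  have h2 : (fun u => ρ.T (fun z => G (z, u)) r) =ᶠ[𝓝 u]
      fun u => grn (fun z => 4 * ρ.pb G (z, u) (1, 0)) 0 r := h1.mono fun u' hu =>
    grn_congr fun z hz => by rw [ρ.sp_pb (hu z (mem_closedBall_zero_iff.2 hz.le))]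
  obtain ⟨h3, h4⟩ := par_grn (S := fun p => 4 * ρ.pb G p (1, 0)) (u := u) (r := r) le_rfl
    fun z hz => ρ.pb_smooth (hG z hz) _ 3
  refine ⟨h3.congr_of_eventuallyEq h2, fun a => ?_⟩
  have h5 := green (u := fun z => 4 * ρ.pb G (z, u) (0, a)) le_rfl hr fun z hz =>
    ContDiffAt.comp (g := fun p => 4 * ρ.pb G p (0, a)) z
      (ρ.pb_smooth (hG z (mem_closedBall_zero_iff.1 hz)) _ 2)
      (contDiffAt_id.prodMk contDiffAt_const)
  have h6 : levi (fun u => ρ.T (fun z => G (z, u)) r) u a =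
      levi (fun u => grn (fun z => 4 * ρ.pb G (z, u) (1, 0)) 0 r) u a := by
    rw [levi, levi, (h2.fderiv (𝕜 := ℝ)).fderiv_eq]
  have h7 : Real.circleAverage (fun z => 4 * ρ.pb G (z, u) (0, a)) 0 r =
      4 * Real.circleAverage (fun z => ρ.lv G z u a) 0 r := by
    rw [← smul_eq_mul, ← Real.circleAverage_fun_smul]
    refine Real.circleAverage_congr_sphere fun z hz => ?_
    rw [mem_sphere_zero_iff_norm, abs_of_nonneg hr] at hz
    simp only [ρ.lv_pb (hG z hz.le).holAt, smul_eq_mul]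
  rw [h7, Real.circleAverage_zero, ← ρ.lv_pb (hG 0 (by simpa using hr)).holAt] at h5
  rw [h6, h4, grn_congr (v := fun z => 4⁻¹ * lap (fun z => 4 * ρ.pb G (z, u) (0, a)) z)
    fun z hz => ?_, grn_mul, ← h5]
  · ring
  · have e1 : ((0 : ℂ), I • a) = I • ((0 : ℂ), a) := by simp
    have e2 : (I, (0 : E n)) = I • ((1 : ℂ), (0 : E n)) := by simp
    rw [levi_slice (S := fun p => 4 * ρ.pb G p (1, 0)) (ρ.pb_smooth (hG z hz.le) _ 2),
      lap_slice (S := fun p => 4 * ρ.pb G p (0, a)) (ρ.pb_smooth (hG z hz.le) _ 2), e1, e2,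
      ρ.pb_comm (hG z hz.le)]
    ring

end Vale.Agent.P272
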