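import Vale.Agent.P272.F.G.Par

/-! P272 F/G/TDr0 (helper22): commuting second order operators. -/

open Metric Set Filter Topology Complex MeasureTheory

noncomputable section

namespace Vale.Agent.P272

variable {V P : Type} [NormedAddCommGroup V] [NormedSpace ℝ V] [NormedAddCommGroup P]
  [NormedSpace ℝ P] {f g : V → ℝ} {q : V}

/-- The directional derivative. -/
def dD (v : V) (f : V → ℝ) (q : V) : ℝ := fderiv ℝ f q v

/-- The sum of two second directional derivatives. -/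
def dL (v w : V) (f : V → ℝ) (q : V) : ℝ :=
  fderiv ℝ (fderiv ℝ f) q v v + fderiv ℝ (fderiv ℝ f) q w w

theorem dD_smooth {m : ℕ} (h : ContDiffAt ℝ (m + 1 : ℕ) f q) (v : V) :
    ContDiffAt ℝ m (dD v f) q :=
  (h.fderiv_right (m := m) (by norm_cast)).clm_apply contDiffAt_const

theorem dD_congr (h : f =ᶠ[𝓝 q] g) (v : V) : dD v f =ᶠ[𝓝 q] dD v g :=
  (h.fderiv (𝕜 := ℝ)).mono fun _ e => congrArg (fun D : V →L[ℝ] ℝ => D v) e

theorem dD_dD (h : ContDiffAt ℝ (2 : ℕ) f q) (v w : V) :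
    dD v (dD w f) q = fderiv ℝ (fderiv ℝ f) q v w := by
  have h1 := ((h.fderiv_right (m := 1) (by norm_cast)).differentiableAt one_ne_zero).hasFDerivAt
  have h2 : HasFDerivAt (dD w f) _ q := h1.clm_apply (hasFDerivAt_const w q)
  rw [dD, h2.fderiv]
  simp

theorem dD_comm (h : ContDiffAt ℝ (2 : ℕ) f q) (v w : V) :
    dD v (dD w f) =ᶠ[𝓝 q] dD w (dD v f) :=
  (h.eventually (by simp)).mono fun _ hp => by
    rw [dD_dD hp, dD_dD hp]
    exact hp.isSymmSndFDerivAt (by simp) v w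

theorem dD_comm3 (h : ContDiffAt ℝ (3 : ℕ) f q) (v w : V) :
    dD v (dD w (dD w f)) =ᶠ[𝓝 q] dD w (dD w (dD v f)) :=
  (dD_comm (dD_smooth (m := 2) h w) v w).trans
    (dD_congr (dD_comm (h.of_le (by norm_cast)) v w) w)

theorem dD_comm4 (h : ContDiffAt ℝ (4 : ℕ) f q) (v w : V) :
    dD v (dD v (dD w (dD w f))) =ᶠ[𝓝 q] dD w (dD w (dD v (dD v f))) :=
  (dD_congr (dD_comm3 (h.of_le (by norm_cast)) v w) v).trans
    (dD_comm3 (dD_smooth (m := 3) h v) v w)

theorem dD_add (h : ContDiffAt ℝ (1 : ℕ) f q) (h' : ContDiffAt ℝ (1 : ℕ) g q) (v : V) :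
    dD v (fun p => f p + g p) =ᶠ[𝓝 q] fun p => dD v f p + dD v g p := by
  filter_upwards [h.eventually (by simp), h'.eventually (by simp)] with p h1 h2
  rw [dD, fderiv_fun_add (h1.differentiableAt (by simp)) (h2.differentiableAt (by simp))]
  rfl

theorem dL_eq (h : ContDiffAt ℝ (2 : ℕ) f q) (v w : V) :
    dL v w f =ᶠ[𝓝 q] fun p => dD v (dD v f) p + dD w (dD w f) p :=
  (h.eventually (by simp)).mono fun _ hp => by simp only [dL, dD_dD hp]

theorem dL_congr (h : f =ᶠ[𝓝 q] g) (v w : V) : dL v w f q = dL v w g q := by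
  rw [dL, dL, (h.fderiv (𝕜 := ℝ)).fderiv_eq]

theorem dL_smooth {m : ℕ} (h : ContDiffAt ℝ (m + 2 : ℕ) f q) (v w : V) :
    ContDiffAt ℝ m (dL v w f) q :=
  ((dD_smooth (dD_smooth (m := m + 1) h v) v).add
    (dD_smooth (dD_smooth (m := m + 1) h w) w)).congr_of_eventuallyEq
      (dL_eq (h.of_le (by norm_cast; omega)) v w)

theorem dL_dL (h : ContDiffAt ℝ (4 : ℕ) f q) (a b v w : V) :
    dL a b (dL v w f) q = dD a (dD a (dD v (dD v f))) q + dD a (dD a (dD w (dD w f))) q +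
      (dD b (dD b (dD v (dD v f))) q + dD b (dD b (dD w (dD w f))) q) := by
  have k : ∀ v, ContDiffAt ℝ (2 : ℕ) (dD v (dD v f)) q := fun v =>
    dD_smooth (dD_smooth (m := 3) h v) v
  have e : ∀ a, dD a (dD a (dL v w f)) q =
      dD a (dD a (dD v (dD v f))) q + dD a (dD a (dD w (dD w f))) q := fun a =>
    ((dD_congr ((dD_congr (dL_eq (h.of_le (by norm_cast)) v w) a).trans
      (dD_add ((k v).of_le (by norm_cast)) ((k w).of_le (by norm_cast)) a)) a).trans
        (dD_add (dD_smooth (m := 1) (k v) a) (dD_smooth (m := 1) (k w) a) a)).self_of_nhds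
  rw [(dL_eq (dL_smooth (m := 2) h v w) a b).self_of_nhds, ← e, ← e]

theorem dL_comm (h : ContDiffAt ℝ (4 : ℕ) f q) (a b v w : V) :
    dL a b (dL v w f) q = dL v w (dL a b f) q := by
  rw [dL_dL h, dL_dL h, (dD_comm4 h a v).self_of_nhds, (dD_comm4 h a w).self_of_nhds,
    (dD_comm4 h b v).self_of_nhds, (dD_comm4 h b w).self_of_nhds]
  ring

theorem dL_slice {φ : P → V} {T : P →L[ℝ] V} {p : P} (hφ : ∀ p, HasFDerivAt φ T p)
    (h : ContDiffAt ℝ (2 : ℕ) f (φ p)) (a b : P) :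
    dL a b (fun p => f (φ p)) p = dL (T a) (T b) f (φ p) := by
  have e : fderiv ℝ (fun p => f (φ p)) =ᶠ[𝓝 p] fun p => (fderiv ℝ f (φ p)).comp T :=
    ((hφ p).continuousAt.eventually (h.eventually (by simp))).mono fun p' hp =>
      ((hp.differentiableAt (by simp)).hasFDerivAt.comp p' (hφ p')).fderiv
  have h1 := (((h.fderiv_right (m := 1) (by norm_cast)).differentiableAt
    one_ne_zero).hasFDerivAt.comp p (hφ p)).clm_comp (hasFDerivAt_const T p)
  have h2 : HasFDerivAt (fun p => (fderiv ℝ f (φ p)).comp T) _ p := h1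
  rw [dL, dL, e.fderiv_eq, h2.fderiv]
  simp

variable {n : ℕ} {S : ℂ × E n → ℝ} {z : ℂ} {u : E n}

theorem lap_slice (h : ContDiffAt ℝ (2 : ℕ) S (z, u)) :
    lap (fun z => S (z, u)) z = dL (1, 0) (I, 0) S (z, u) :=
  dL_slice (φ := fun z => (z, u)) (T := ContinuousLinearMap.inl ℝ ℂ (E n))
    (fun z => hasFDerivAt_prodMk_left z u) h 1 I

theorem levi_slice (h : ContDiffAt ℝ (2 : ℕ) S (z, u)) (a : E n) :
    levi (fun u => S (z, u)) u a = dL (0, a) (0, I • a) S (z, u) / 4 :=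
  congrArg (· / 4)
    (dL_slice (φ := fun u => (z, u)) (T := ContinuousLinearMap.inr ℝ ℂ (E n))
      (fun u => hasFDerivAt_prodMk_right z u) h a (I • a))

theorem dL_hol {B : Type} [NormedAddCommGroup B] [NormedSpace ℂ B] {u : E n → ℝ} {T : B → E n}
    {y : B} (hT : AnalyticAt ℂ T y) (hu : ContDiffAt ℝ 2 u (T y)) (a : B) :
    dL a (I • a) (u ∘ T) y = 4 * levi u (T y) (fderiv ℂ T y a) := by
  have e : fderiv ℝ (u ∘ T) =ᶠ[𝓝 y] fun z =>
      (fderiv ℝ u (T z)).comp ((fderiv ℂ T z).restrictScalars ℝ) := by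
    filter_upwards [hT.eventually_analyticAt,
      hT.continuousAt.eventually (hu.eventually (by simp))] with z h1 h2
    exact ((h2.differentiableAt two_ne_zero).hasFDerivAt.comp z
      (h1.differentiableAt.hasFDerivAt.restrictScalars ℝ)).fderiv
  have h1 := ((hu.fderiv_right (m := 1) le_rfl).differentiableAt one_ne_zero).hasFDerivAt.comp y
    (hT.differentiableAt.hasFDerivAt.restrictScalars ℝ)
  have h2 := (ContinuousLinearMap.restrictScalarsL ℂ B (E n) ℝ ℝ).hasFDerivAt.comp y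
    (hT.fderiv.differentiableAt.hasFDerivAt.restrictScalars ℝ)
  have key : ∀ a, fderiv ℝ (fderiv ℝ (u ∘ T)) y a a =
      fderiv ℝ (fderiv ℝ u) (T y) (fderiv ℂ T y a) (fderiv ℂ T y a) +
        fderiv ℝ u (T y) (fderiv ℂ (fderiv ℂ T) y a a) := fun a => by
    rw [e.fderiv_eq]
    exact (congrArg (fun D : B →L[ℝ] B →L[ℝ] ℝ => D a a) (h1.clm_comp h2).fderiv).trans
      (add_comm _ _)
  rw [dL, levi, key, key, (fderiv ℂ T y).map_smul,
    (fderiv ℂ (fderiv ℂ T) y).map_smul, (I • fderiv ℂ (fderiv ℂ T) y a).map_smul, smul_apply,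
    smul_smul, I_mul_I, neg_one_smul, map_neg]
  ring

end Vale.Agent.P272
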